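import Crest.Agent.R115.Girth

set_option autoImplicit false

namespace Crest.Agent.R115

/-- colours seen along a list of directions -/
def cols {N : Type} (col : N → Fin 3 → Fin 4) (σ : Fin 3 → N → N) : N → List (Fin 3) → List (Fin 4)
  | _, [] => []
  | x, j :: js => col x j :: cols col σ (σ j x) js

/-- edges along a walk -/
def edges {Ω : Type} (s : Fin 3 → Ω → Ω) : Ω → List (Fin 3) → List (Sym2 Ω)
  | _, [] => []
  | ω, j :: js => s(ω, s j ω) :: edges s (s j ω) js

lemma edges_length {Ω : Type} (s : Fin 3 → Ω → Ω) (ω : Ω) (js : List (Fin 3)) :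
    (edges s ω js).length = js.length := by
  induction js generalizing ω with
  | nil => rfl
  | cons j js ih => simp [edges, ih]

lemma mem_edges {Ω : Type} (s : Fin 3 → Ω → Ω) (ω : Ω) (js : List (Fin 3)) (e : Sym2 Ω)
    (he : e ∈ edges s ω js) (z : Ω) (hz : z ∈ e) : ∃ p, p <+: js ∧ z = walk s ω p := by
  induction js generalizing ω with
  | nil => simp [edges] at he
  | cons j js ih =>
    simp only [edges, List.mem_cons] at he
    rcases he with rfl | he
    · rcases Sym2.mem_iff.1 hz with rfl | rfl
      · exact ⟨[], List.nil_prefix, rfl⟩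
      · exact ⟨[j], by simp, rfl⟩
    · obtain ⟨p, hp, rfl⟩ := ih _ he
      exact ⟨j :: p, by simpa using hp, rfl⟩

lemma edges_nodup {Ω : Type} (s : Fin 3 → Ω → Ω) (g : ℕ) (hg : Girth s g) (ω : Ω)
    (js : List (Fin 3)) (hr : Red js) (hl : js.length ≤ g) : (edges s ω js).Nodup := by
  induction js generalizing ω with
  | nil => simp [edges]
  | cons j js ih =>
    simp only [edges, List.nodup_cons]
    refine ⟨fun he => ?_, ih _ hr.tail (by simp at hl; omega)⟩
    obtain ⟨p, hp, hz⟩ := mem_edges s _ js _ he ω (by simp)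
    have hp' : j :: p <+: j :: js := by simpa using hp
    have := hg ω [] (j :: p) (by simp) (hr.prefix hp') (by simp) (hp'.length_le.trans hl) hz
    simp at this

lemma count_map {E : Type} [Fintype E] [DecidableEq E] (l : List E) (hl : l.Nodup)
    (cs : List (Fin 4)) :
    (Finset.univ.filter (fun γ : E → Fin 4 => l.map γ = cs)).card * 4 ^ l.length
      ≤ Fintype.card (E → Fin 4) := by
  induction l generalizing cs with
  | nil => rw [List.length_nil, pow_zero, mul_one]; exact Finset.card_le_univ _
  | cons e l ih =>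
    obtain ⟨he, hl'⟩ := List.nodup_cons.1 hl
    refine le_trans ?_ (ih hl' cs.tail)
    rw [List.length_cons, pow_succ', ← mul_assoc]
    refine Nat.mul_le_mul_right _ ?_
    have : (Finset.univ.filter (fun γ : E → Fin 4 => (e :: l).map γ = cs)).card * 4 =
        ((Finset.univ.filter (fun γ : E → Fin 4 => (e :: l).map γ = cs)) ×ˢ
          (Finset.univ : Finset (Fin 4))).card := by simp
    rw [this]
    refine Finset.card_le_card_of_injOn (fun q => Function.update q.1 e q.2) ?_ ?_
    · rintro ⟨γ, c⟩ hq
      simp only [Finset.coe_product, Set.mem_prod, Finset.coe_filter, Finset.mem_univ, true_and,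
        Set.mem_ofPred_eq] at hq ⊢
      rw [← hq.1, List.map_cons, List.tail_cons]
      refine List.map_congr_left fun a ha => ?_
      rw [Function.update_of_ne (fun h : a = e => he (h ▸ ha))]
    · rintro ⟨γ, c⟩ hq ⟨γ', c'⟩ hq' h
      simp only [Finset.coe_product, Set.mem_prod, Finset.coe_filter, Finset.mem_univ, true_and,
        Set.mem_ofPred_eq] at hq hq' h
      have h1 : c = c' := by simpa using congrFun h e
      have h2 : γ e = γ' e := by
        have := hq.1.trans hq'.1.symm
        simp only [List.map_cons, List.cons.injEq] at this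
        exact this.1
      refine Prod.ext ?_ h1
      funext a
      by_cases ha : a = e
      · rw [ha]; exact h2
      · have := congrFun h a
        simpa [Function.update_of_ne ha] using this

theorem exists_colouring {Λ : Type} [Fintype Λ] [Nonempty Λ] (s : Fin 3 × Fin 4 → Λ → Λ)
    (hs : ∀ a μ, s a (s a μ) = μ) :
    ∃ (N : Type) (_ : Countable N) (_ : Infinite N) (_ : DecidableEq N)
      (col : N → Fin 3 → Fin 4) (σ : Fin 3 → N → N)
      (π : N → Λ), (∀ i x, σ i (σ i x) = x) ∧ (∀ i x, col (σ i x) i = col x i) ∧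
      (∀ i x, π (σ i x) = s (i, col x i) (π x)) ∧ Function.Surjective π ∧
      ∀ t : ℕ, ∃ W : Finset N, W.Nonempty ∧ (∀ i, ∀ x ∈ W, σ i x ∈ W) ∧
        ∀ js, Red js → js.length = t → ∀ cs,
          (W.filter (fun x => cols col σ x js = cs)).card * 4 ^ t ≤ W.card := by
  classical
  choose Ω hF hN q hq hg using fun t => exists_girth (Fin 3) t
  let V : ℕ → Type := fun t => Ω t × (Sym2 (Ω t) → Fin 4) × Λ
  let col : (Σ t, V t) → Fin 3 → Fin 4 := fun x i => x.2.2.1 s(x.2.1, q x.1 i x.2.1)
  let σ : Fin 3 → (Σ t, V t) → (Σ t, V t) := fun i x =>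
    ⟨x.1, q x.1 i x.2.1, x.2.2.1, s (i, col x i) x.2.2.2⟩
  have hcol : ∀ i x, col (σ i x) i = col x i := by
    rintro i ⟨t, ω, γ, μ⟩
    simp only [col, σ, hq]
    rw [Sym2.eq_swap]
  have hcols : ∀ t (js : List (Fin 3)) (ω : Ω t) γ μ,
      cols col σ ⟨t, ω, γ, μ⟩ js = (edges (q t) ω js).map γ := by
    intro t js
    induction js with
    | nil => intros; rfl
    | cons j js ih =>
      intro ω γ μ
      simp only [cols, edges, List.map_cons]
      rw [← ih (q t j ω) γ (s (j, col ⟨t, ω, γ, μ⟩ j) μ)]
  have hV : ∀ t, Nonempty (V t) := fun t => inferInstance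
  refine ⟨Σ t, V t, inferInstance, ?_, inferInstance, col, σ, fun x => x.2.2.2, ?_, hcol,
    fun _ _ => rfl, ?_, ?_⟩
  · exact Infinite.of_injective (fun t => ⟨t, Classical.choice (hV t)⟩)
      (fun a b h => congrArg Sigma.fst h)
  · intro i x
    have h := hcol i x
    obtain ⟨t, ω, γ, μ⟩ := x
    show (⟨t, q t i (q t i ω), γ, s (i, col (σ i ⟨t, ω, γ, μ⟩) i) (s (i, col ⟨t, ω, γ, μ⟩ i) μ)⟩ :
      Σ t, V t) = ⟨t, ω, γ, μ⟩
    rw [h, hq, hs]
  · intro μ
    exact ⟨⟨0, Classical.choice (hN 0), fun _ => 0, μ⟩, rfl⟩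
  · intro t
    refine ⟨(Finset.univ : Finset (V t)).map ⟨Sigma.mk t, sigma_mk_injective⟩, ?_, ?_, ?_⟩
    · simp
    · intro i x hx
      obtain ⟨y, -, rfl⟩ := Finset.mem_map.1 hx
      exact Finset.mem_map.2 ⟨_, Finset.mem_univ _, rfl⟩
    · intro js hr hl cs
      rw [Finset.filter_map, Finset.card_map, Finset.card_map]
      have h1 : (Finset.univ.filter ((fun x => cols col σ x js = cs) ∘
          (⟨Sigma.mk t, sigma_mk_injective⟩ : V t ↪ Σ t, V t))).card =
          ∑ ω : Ω t, (Finset.univ.filter
            (fun γ : Sym2 (Ω t) → Fin 4 => (edges (q t) ω js).map γ = cs)).card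
              * Fintype.card Λ := by
        rw [Finset.card_filter]
        simp only [V]
        rw [Fintype.sum_prod_type]
        refine Finset.sum_congr rfl fun ω _ => ?_
        rw [Fintype.sum_prod_type, Finset.card_filter, Finset.sum_mul]
        refine Finset.sum_congr rfl fun γ _ => ?_
        simp only [Function.comp, Function.Embedding.coeFn_mk, hcols]
        split_ifs <;> simp
      rw [h1, Finset.sum_mul, Finset.card_univ]
      simp only [V]
      rw [Fintype.card_prod, Fintype.card_prod, ← Finset.card_univ (α := Ω t), ← smul_eq_mul,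
        ← Finset.sum_const]
      refine Finset.sum_le_sum fun ω _ => ?_
      have := count_map (edges (q t) ω js) (edges_nodup (q t) t (hg t) ω js hr hl.le) cs
      rw [edges_length, hl] at this
      calc _ = (Finset.univ.filter
            (fun γ : Sym2 (Ω t) → Fin 4 => (edges (q t) ω js).map γ = cs)).card * 4 ^ t
              * Fintype.card Λ := by ring
        _ ≤ _ := Nat.mul_le_mul_right _ this

end Crest.Agent.R115
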