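import Crest.Agent.R115.State

set_option autoImplicit false

namespace Crest.Agent.R115

/-- sign of the difference -/
noncomputable def sg (a b : ℕ) : ℝ := if a < b then 1 else if b < a then -1 else 0

lemma sg_anti (a b : ℕ) : sg a b = - sg b a := by
  unfold sg
  split_ifs <;> first | omega | simp

lemma abs_sg (a b : ℕ) : |sg a b| ≤ 1 := by
  unfold sg
  split_ifs <;> simp

lemma sum_sg_ge (f : Fin 3 → ℝ) (h : ∀ i, |f i| ≤ 1) (i0 : Fin 3) (h1 : ∀ i, i ≠ i0 → f i = 1) :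
    1 ≤ ∑ i, f i := by
  have := abs_le.1 (h i0)
  rw [← Finset.add_sum_erase _ _ (Finset.mem_univ i0),
    Finset.sum_congr rfl (fun i hi => h1 i (Finset.ne_of_mem_erase hi))]
  simp
  linarith

structure Ctx where
  Λ : Type
  N : Type
  s : Let → Λ → Λ
  R : ℕ
  col : N → Fin 3 → Fin 4
  σ : Fin 3 → N → N
  π : N → Λ
  hR : 0 < R
  hs : ∀ a μ, s a (s a μ) = μ
  hg : Girth s (R + 1)
  hσ : ∀ i x, σ i (σ i x) = x
  hc : ∀ i x, col (σ i x) i = col x i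
  hπ : ∀ i x, π (σ i x) = s (i, col x i) (π x)

namespace Ctx
variable (C : Ctx)

noncomputable def φ (ν : C.Λ) (v : C.N) : ℝ := 1 - (len C.s C.R (C.π v) ν : ℝ) / C.R

noncomputable def η (ν : C.Λ) (v : C.N) : C.N × List Let :=
  nf C.col C.σ v (lag C.s C.R (C.π v) ν)

def famA (r : ℝ) : Set (C.N → ℝ) := {f | (∀ p, |f p| ≤ r) ∧ ∀ i p, |f p - f (C.σ i p)| ≤ 1}

def fam (r : ℝ) : Set (C.N → ℝ) := C.famA r ∪ {f | ∃ ν, f = fun p => C.R * C.φ ν p}

lemma Rpos : (0 : ℝ) < C.R := by exact_mod_cast C.hR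

lemma φ_nonneg (ν : C.Λ) (v : C.N) : 0 ≤ C.φ ν v := by
  have h : (len C.s C.R (C.π v) ν : ℝ) ≤ C.R := by exact_mod_cast len_le _ _
  unfold φ
  rw [sub_nonneg, div_le_one C.Rpos]; exact h

lemma φ_le (ν : C.Λ) (v : C.N) : C.φ ν v ≤ 1 := by
  unfold φ
  have : 0 ≤ (len C.s C.R (C.π v) ν : ℝ) / C.R := by positivity
  linarith

lemma abs_φ (ν : C.Λ) (v : C.N) : |C.φ ν v| ≤ 1 := by
  rw [abs_of_nonneg (C.φ_nonneg ν v)]; exact C.φ_le ν v

lemma φ_zero {ν : C.Λ} {v : C.N} (h : ¬ len C.s C.R (C.π v) ν < C.R) : C.φ ν v = 0 := by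
  have h1 : len C.s C.R (C.π v) ν = C.R := le_antisymm (len_le _ _) (not_lt.1 h)
  unfold φ
  rw [h1, div_self C.Rpos.ne', sub_self]

lemma φ_self (v : C.N) : C.φ (C.π v) v = 1 := by
  unfold φ
  rw [len_self C.hg]; simp

lemma φ_left (ν : C.Λ) (v : C.N) (i : Fin 3) : |C.φ ν v - C.φ ν (C.σ i v)| ≤ 1 / C.R := by
  have := len_left_abs C.hg C.hs (C.π v) ν (i, C.col v i)
  unfold φ
  rw [C.hπ, show ∀ a b : ℝ, 1 - a / C.R - (1 - b / C.R) = -(a - b) / C.R from fun a b => by ring,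
    abs_div, abs_neg, abs_of_pos C.Rpos]
  exact div_le_div_of_nonneg_right this C.Rpos.le

lemma φ_right (ν : C.Λ) (v : C.N) (b : Let) : |C.φ ν v - C.φ (C.s b ν) v| ≤ 1 / C.R := by
  have := len_right_abs C.hg C.hs (C.π v) ν b
  unfold φ
  rw [show ∀ a b : ℝ, 1 - a / C.R - (1 - b / C.R) = -(a - b) / C.R from fun a b => by ring,
    abs_div, abs_neg, abs_of_pos C.Rpos]
  exact div_le_div_of_nonneg_right this C.Rpos.le

lemma η_left {ν : C.Λ} {v : C.N} (h : len C.s C.R (C.π v) ν < C.R) (i : Fin 3) :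
    C.η ν (C.σ i v) = C.η ν v := by
  unfold η
  rw [C.hπ, lag_left C.hg C.hs h, nf_lmul C.hσ C.hc]

lemma η_right {ν : C.Λ} {v : C.N} (b : Let)
    (h : len C.s C.R (C.π v) ν < C.R ∨ len C.s C.R (C.π v) (C.s b ν) < C.R) :
    C.η (C.s b ν) v = act C.col C.σ b (C.η ν v) ∧ C.η ν v = act C.col C.σ b (C.η (C.s b ν) v) := by
  obtain ⟨h1, h2⟩ := lag_right_both C.hg C.hs b h
  unfold η
  rw [← nf_rmul C.hσ C.hc, ← nf_rmul C.hσ C.hc, ← h1, ← h2]
  exact ⟨rfl, rfl⟩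

lemma test1 {r : ℝ} (hr0 : 0 ≤ r) (hr : r ≤ C.R) (ν : C.Λ) (sn : C.N × List Let → ℝ)
    (hsn : ∀ z, |sn z| ≤ 1) : (fun v => r * (C.φ ν v * sn (C.η ν v))) ∈ C.fam r := by
  refine Or.inl ⟨fun p => ?_, fun i p => ?_⟩
  · rw [abs_mul, abs_mul, abs_of_nonneg hr0]
    exact mul_le_of_le_one_right hr0 (mul_le_one₀ (C.abs_φ _ _) (abs_nonneg _) (hsn _))
  · have key : ∀ z, |r * (C.φ ν p * sn z) - r * (C.φ ν (C.σ i p) * sn z)| ≤ 1 := by
      intro z
      rw [← mul_sub, ← sub_mul, abs_mul, abs_mul, abs_of_nonneg hr0]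
      have h1 : |C.φ ν p - C.φ ν (C.σ i p)| * |sn z| ≤ 1 / C.R * 1 :=
        mul_le_mul (C.φ_left ν p i) (hsn z) (abs_nonneg _) (by have := C.Rpos; positivity)
      calc _ ≤ r * (1 / C.R * 1) := mul_le_mul_of_nonneg_left h1 hr0
        _ = r / C.R := by ring
        _ ≤ 1 := (div_le_one C.Rpos).2 hr
    dsimp only
    by_cases h1 : len C.s C.R (C.π p) ν < C.R
    · rw [C.η_left h1]; exact key _
    · by_cases h2 : len C.s C.R (C.π (C.σ i p)) ν < C.R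
      · have := C.η_left h2 i
        rw [C.hσ] at this
        rw [this]; exact key _
      · rw [C.φ_zero h1, C.φ_zero h2]; simp

lemma test2 {r : ℝ} (hr : 1 ≤ r) (f : C.N → ℝ) (hf : ∀ v, |f v| ≤ 1 / 2) : f ∈ C.fam r := by
  refine Or.inl ⟨fun p => (hf p).trans (by linarith), fun i p => ?_⟩
  have h1 := abs_le.1 (hf p)
  have h2 := abs_le.1 (hf (C.σ i p))
  rw [abs_le]; constructor <;> linarith

lemma fam_edge {r : ℝ} (f : C.N → ℝ) (hf : f ∈ C.fam r) (x : C.N) (i : Fin 3) :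
    |f x - f (C.σ i x)| ≤ 1 := by
  rcases hf with hf | ⟨ν, rfl⟩
  · exact hf.2 i x
  · dsimp only
    rw [← mul_sub, abs_mul, abs_of_pos C.Rpos]
    calc _ ≤ C.R * (1 / (C.R : ℝ)) := mul_le_mul_of_nonneg_left (C.φ_left ν x i) C.Rpos.le
      _ = 1 := by have := C.Rpos; field_simp

lemma fam_fiber {r : ℝ} (hr : 0 ≤ r) (f : C.N → ℝ) (hf : f ∈ C.fam r) (x y : C.N)
    (h : C.π x = C.π y) : |f x - f y| ≤ 2 * r := by
  rcases hf with hf | ⟨ν, rfl⟩
  · have h1 := abs_le.1 (hf.1 x)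
    have h2 := abs_le.1 (hf.1 y)
    rw [abs_le]; constructor <;> linarith
  · simp only [φ, h, sub_self, abs_zero]; linarith

lemma fam_bound {r : ℝ} (hr : r ≤ C.R) (f : C.N → ℝ) (hf : f ∈ C.fam r) (x : C.N) :
    |f x| ≤ C.R := by
  rcases hf with hf | ⟨ν, rfl⟩
  · exact (hf.1 x).trans hr
  · dsimp only
    rw [abs_mul, abs_of_pos C.Rpos]
    exact mul_le_of_le_one_right C.Rpos.le (C.abs_φ _ _)

/-- the flow -/
noncomputable def θ (T : ℕ) (x : C.N) (i : Fin 3) (z : C.N × List Let) : ℝ :=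
  sg (psi C.col C.σ T x z) (psi C.col C.σ T (C.σ i x) (act C.col C.σ (i, C.col x i) z))

section main
variable [DecidableEq C.N] (r L K : ℝ) (G : Finset C.N) (t : C.N → C.N → ℝ) (an : C.Λ → C.N)

/-- the weighted mass -/
noncomputable def QQ (x : C.N) (h : C.N × List Let → ℝ) : ℝ :=
  Q G (C.η (C.π x)) (fun v => t x v * C.φ (C.π x) v) h

variable {r L K G t an}

lemma QQ_ge (han : ∀ ν, C.π (an ν) = ν)
    (hK : ∀ x, ∀ f ∈ C.fam r, |∑ v ∈ G, t x v * f v - f (an (C.π x))| ≤ K) (x : C.N) :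
    1 - K / C.R ≤ C.QQ G t x (fun _ => 1) := by
  refine le_trans ?_ (Q_ge _ _ _)
  have h := hK x (fun p => C.R * C.φ (C.π x) p) (Or.inr ⟨_, rfl⟩)
  have h1 : C.φ (C.π x) (an (C.π x)) = 1 := by
    have := C.φ_self (an (C.π x)); rwa [han] at this
  rw [h1] at h
  have h2 : ∑ v ∈ G, t x v * (C.R * C.φ (C.π x) v) = C.R * ∑ v ∈ G, t x v * C.φ (C.π x) v := by
    rw [Finset.mul_sum]; exact Finset.sum_congr rfl fun v _ => by ring
  rw [h2] at h
  have h3 := (abs_le.1 h).1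
  have := C.Rpos
  rw [sub_le_iff_le_add, ← sub_le_iff_le_add', le_div_iff₀ this]
  linarith

lemma QQ_le (hr0 : 0 < r) (hr : r ≤ C.R)
    (hK : ∀ x, ∀ f ∈ C.fam r, |∑ v ∈ G, t x v * f v - f (an (C.π x))| ≤ K) (x : C.N) :
    C.QQ G t x (fun _ => 1) ≤ 1 + K / r := by
  obtain ⟨sn, hsn, h1⟩ := Q_sign G (C.η (C.π x)) (fun v => t x v * C.φ (C.π x) v)
  unfold QQ
  rw [h1]
  have hf := C.test1 hr0.le hr (C.π x) sn hsn
  have h := hK x _ hf
  have h2 : ∑ v ∈ G, t x v * (r * (C.φ (C.π x) v * sn (C.η (C.π x) v))) =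
      r * ∑ v ∈ G, t x v * C.φ (C.π x) v * sn (C.η (C.π x) v) := by
    rw [Finset.mul_sum]; exact Finset.sum_congr rfl fun v _ => by ring
  rw [h2] at h
  have h3 := (abs_le.1 h).2
  have h4 : C.φ (C.π x) (an (C.π x)) * sn (C.η (C.π x) (an (C.π x))) ≤ 1 := by
    refine (le_abs_self _).trans ?_
    rw [abs_mul]
    exact mul_le_one₀ (C.abs_φ _ _) (abs_nonneg _) (hsn _)
  have h5 := mul_le_mul_of_nonneg_left h4 hr0.le
  rw [← sub_le_iff_le_add', le_div_iff₀ hr0]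
  linarith

lemma QQ_pair (hr1 : 1 ≤ r) (hr : r ≤ C.R)
    (hK : ∀ x, ∀ f ∈ C.fam r, |∑ v ∈ G, t x v * f v - f (an (C.π x))| ≤ K)
    (hL : ∀ x i, ∀ f ∈ C.fam r, |∑ v ∈ G, (t x v - t (C.σ i x) v) * f v| ≤ L)
    (T : ℕ) (x : C.N) (i : Fin 3) :
    C.QQ G t x (C.θ T x i) + C.QQ G t (C.σ i x) (C.θ T (C.σ i x) i)
      ≤ L / r + (1 + 2 * K) / C.R := by
  classical
  have hr0 : 0 < r := by linarith
  set b : Let := (i, C.col x i) with hb
  set G' := G.filter (fun v => len C.s C.R (C.π v) (C.π x) < C.R ∨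
    len C.s C.R (C.π v) (C.s b (C.π x)) < C.R) with hG'
  have hsub : G' ⊆ G := Finset.filter_subset _ _
  have hz : ∀ v ∈ G, v ∉ G' → C.φ (C.π x) v = 0 ∧ C.φ (C.s b (C.π x)) v = 0 := by
    intro v hv hv'
    rw [hG', Finset.mem_filter, not_and, not_or] at hv'
    exact ⟨C.φ_zero (hv' hv).1, C.φ_zero (hv' hv).2⟩
  unfold QQ
  rw [C.hπ, ← hb, Q_restrict hsub _ _ _ (fun v hv hv' => by rw [(hz v hv hv').1, mul_zero]),
    Q_restrict hsub (C.η (C.s b (C.π x))) _ _ (fun v hv hv' => by rw [(hz v hv hv').2, mul_zero])]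
  have hη : ∀ v ∈ G', C.η (C.s b (C.π x)) v = act C.col C.σ b (C.η (C.π x) v) ∧
      C.η (C.π x) v = act C.col C.σ b (C.η (C.s b (C.π x)) v) :=
    fun v hv => C.η_right b (Finset.mem_filter.1 hv).2
  refine Q_pair G' _ _ (act C.col C.σ b) _ _ _ _ _ (fun v hv => (hη v hv).1)
    (fun v hv => (hη v hv).2) (fun v hv => ?_) (fun z => abs_sg _ _) (fun sn hsn => ?_)
  · unfold θ
    rw [C.hσ, C.hc, ← hb, ← (hη v hv).2, ← (hη v hv).1, sg_anti]
  · rw [Finset.sum_subset hsub (fun v hv hv' => by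
      rw [(hz v hv hv').1, (hz v hv hv').2]; simp)]
    have h1 := hL x i _ (C.test1 hr0.le hr (C.π x) sn hsn)
    set F2 : C.N → ℝ := fun v => C.R / 2 * ((C.φ (C.π x) v - C.φ (C.s b (C.π x)) v) *
      sn (C.η (C.π x) v)) with hF2
    have hF : ∀ v, |F2 v| ≤ 1 / 2 := by
      intro v
      have hR := C.Rpos
      simp only [hF2]
      rw [abs_mul, abs_mul, abs_of_pos (by positivity)]
      have k1 : |C.φ (C.π x) v - C.φ (C.s b (C.π x)) v| * |sn (C.η (C.π x) v)| ≤ 1 / C.R * 1 :=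
        mul_le_mul (C.φ_right _ _ _) (hsn _) (abs_nonneg _) (by positivity)
      calc _ ≤ (C.R : ℝ) / 2 * (1 / C.R * 1) := mul_le_mul_of_nonneg_left k1 (by positivity)
        _ = 1 / 2 := by field_simp
    have h2 := hK (C.σ i x) _ (C.test2 hr1 F2 hF)
    have h3 := abs_le.1 (hF (an (C.π (C.σ i x))))
    have e : ∑ v ∈ G, (t x v * C.φ (C.π x) v - t (C.σ i x) v * C.φ (C.s b (C.π x)) v) *
        sn (C.η (C.π x) v) =
        (∑ v ∈ G, (t x v - t (C.σ i x) v) * (r * (C.φ (C.π x) v * sn (C.η (C.π x) v)))) / r +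
        (2 * ∑ v ∈ G, t (C.σ i x) v * F2 v) / C.R := by
      rw [Finset.mul_sum, Finset.sum_div, Finset.sum_div, ← Finset.sum_add_distrib]
      refine Finset.sum_congr rfl fun v _ => ?_
      have hR := C.Rpos
      simp only [hF2]
      field_simp
      ring
    rw [e]
    refine add_le_add (div_le_div_of_nonneg_right ((le_abs_self _).trans h1) hr0.le)
      (div_le_div_of_nonneg_right ?_ C.Rpos.le)
    have := (abs_le.1 h2).2
    linarith

lemma QQ_div_good (T : ℕ) (x : C.N)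
    (hx : ∀ v ∈ G, ecc C.col C.σ T x (C.η (C.π x) v).1 < T) :
    C.QQ G t x (fun _ => 1) ≤ ∑ i, C.QQ G t x (C.θ T x i) := by
  have := Q_sum_ge G (C.η (C.π x)) (fun v => t x v * C.φ (C.π x) v) (C.θ T x) 1 (fun v hv => by
    obtain ⟨i0, hi0⟩ := psi_incr C.hσ C.hc T x (C.η (C.π x) v) (nf_normal _ _) (hx v hv)
    refine sum_sg_ge _ (fun i => abs_sg _ _) i0 fun i hi => ?_
    unfold θ sg
    rw [if_pos (hi0 i hi)])
  rw [one_mul] at this
  exact this

lemma QQ_div_bad (T : ℕ) (x : C.N) :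
    -3 * C.QQ G t x (fun _ => 1) ≤ ∑ i, C.QQ G t x (C.θ T x i) := by
  refine Q_sum_ge G (C.η (C.π x)) (fun v => t x v * C.φ (C.π x) v) (C.θ T x) (-3) (fun v _ => ?_)
  have : ∑ _i : Fin 3, (-1 : ℝ) ≤ ∑ i, C.θ T x i (C.η (C.π x) v) :=
    Finset.sum_le_sum fun i _ => (abs_le.1 (abs_sg _ _)).1
  simpa using this

lemma bad_count [Fintype C.Λ] (G : Finset C.N) (T : ℕ) (W : Finset C.N)
    (hW : ∀ js, Red js → js.length = T → ∀ cs,
      (W.filter (fun x => cols C.col C.σ x js = cs)).card * 4 ^ T ≤ W.card) :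
    (W.filter (fun x => ¬ ∀ v ∈ G, ecc C.col C.σ T x (C.η (C.π x) v).1 < T)).card * 4 ^ T
      ≤ G.card * Fintype.card C.Λ * 3 ^ T * W.card := by
  classical
  let S : Finset (C.N × C.Λ × (Fin T → Fin 3)) := G ×ˢ Finset.univ
  let B : C.N × C.Λ × (Fin T → Fin 3) → Finset C.N := fun q =>
    W.filter (fun x => Red (List.ofFn q.2.2) ∧ cols C.col C.σ x (List.ofFn q.2.2) =
      cols C.col C.σ (C.η q.2.1 q.1).1 (List.ofFn q.2.2))
  have hsub : W.filter (fun x => ¬ ∀ v ∈ G, ecc C.col C.σ T x (C.η (C.π x) v).1 < T) ⊆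
      S.biUnion B := by
    intro x hx
    obtain ⟨hxW, hx⟩ := Finset.mem_filter.1 hx
    push Not at hx
    obtain ⟨v, hv, hx⟩ := hx
    obtain ⟨js, h1, h2, h3⟩ := ecc_spec (col := C.col) (σ := C.σ) T x (C.η (C.π x) v).1
    have h4 : js.length = T := h2.trans (le_antisymm (ecc_le _ _ _) hx)
    subst h4
    refine Finset.mem_biUnion.2 ⟨(v, C.π x, js.get), by simp [S, hv], ?_⟩
    simp only [B, List.ofFn_get]
    exact Finset.mem_filter.2 ⟨hxW, h1, h3⟩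
  have hB : ∀ q ∈ S, (B q).card * 4 ^ T ≤ W.card := by
    intro q _
    by_cases hq : Red (List.ofFn q.2.2)
    · simp only [B, hq, true_and]
      exact hW _ hq (by simp) _
    · simp [B, hq]
  calc _ ≤ (∑ q ∈ S, (B q).card) * 4 ^ T :=
        Nat.mul_le_mul_right _ ((Finset.card_le_card hsub).trans Finset.card_biUnion_le)
    _ = ∑ q ∈ S, (B q).card * 4 ^ T := Finset.sum_mul _ _ _
    _ ≤ ∑ _q ∈ S, W.card := Finset.sum_le_sum hB
    _ = _ := by simp [S, mul_assoc]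

lemma contra [Fintype C.Λ] (hr1 : 1 ≤ r) (hr : r ≤ C.R) (han : ∀ ν, C.π (an ν) = ν)
    (hK : ∀ x, ∀ f ∈ C.fam r, |∑ v ∈ G, t x v * f v - f (an (C.π x))| ≤ K)
    (hL : ∀ x i, ∀ f ∈ C.fam r, |∑ v ∈ G, (t x v - t (C.σ i x) v) * f v| ≤ L)
    (hW : ∀ T : ℕ, ∃ W : Finset C.N, W.Nonempty ∧ (∀ i, ∀ x ∈ W, C.σ i x ∈ W) ∧
        ∀ js, Red js → js.length = T → ∀ cs,
          (W.filter (fun x => cols C.col C.σ x js = cs)).card * 4 ^ T ≤ W.card)
    (h1 : L / r + (1 + 2 * K) / C.R ≤ 1 / 5) (h2 : K / C.R ≤ 1 / 2) : False := by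
  classical
  have hr0 : 0 < r := by linarith
  set M : ℝ := 1 + K / r with hM
  set c : ℝ := G.card * Fintype.card C.Λ with hc
  obtain ⟨T, hT⟩ : ∃ T : ℕ, 4 * M * c * (3 / 4 : ℝ) ^ T < 1 / 5 := by
    have := (tendsto_pow_atTop_nhds_zero_of_lt_one (r := (3 / 4 : ℝ)) (by norm_num)
      (by norm_num)).const_mul (4 * M * c)
    rw [mul_zero] at this
    exact (this.eventually (gt_mem_nhds (by norm_num))).exists
  obtain ⟨W, hne, hinv, hcnt⟩ := hW T
  have hbad := C.bad_count G T W hcnt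
  set Bd := W.filter (fun x => ¬ ∀ v ∈ G, ecc C.col C.σ T x (C.η (C.π x) v).1 < T) with hBd
  have hWpos : (0 : ℝ) < W.card := by exact_mod_cast hne.card_pos
  have hM0 : 0 ≤ M := by
    obtain ⟨x, -⟩ := hne
    have k1 := C.QQ_ge han hK x
    have k2 := C.QQ_le hr0 hr hK x
    linarith
  have hbad' : (Bd.card : ℝ) ≤ c * (3 / 4 : ℝ) ^ T * W.card := by
    have : (Bd.card : ℝ) * 4 ^ T ≤ c * 3 ^ T * W.card := by rw [hc]; exact_mod_cast hbad
    rw [div_pow, ← le_div_iff₀ (by positivity)] at *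
    calc _ ≤ _ := this
      _ = _ := by ring
  -- upper bound
  have up : ∀ i, 2 * ∑ x ∈ W, C.QQ G t x (C.θ T x i) ≤ W.card * (1 / 5) := by
    intro i
    have e : ∑ x ∈ W, C.QQ G t x (C.θ T x i) =
        ∑ x ∈ W, C.QQ G t (C.σ i x) (C.θ T (C.σ i x) i) :=
      Finset.sum_nbij' (C.σ i) (C.σ i) (hinv i) (hinv i) (fun x _ => C.hσ i x)
        (fun x _ => C.hσ i x) (fun x _ => by rw [C.hσ])
    rw [two_mul]
    nth_rewrite 2 [e]
    rw [← Finset.sum_add_distrib, ← nsmul_eq_mul, ← Finset.sum_const]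
    exact Finset.sum_le_sum fun x _ => (C.QQ_pair hr1 hr hK hL T x i).trans h1
  have up' : ∑ x ∈ W, ∑ i, C.QQ G t x (C.θ T x i) ≤ W.card * (3 / 10) := by
    rw [Finset.sum_comm, Fin.sum_univ_three]
    have := up 0; have := up 1; have := up 2
    linarith
  have low : ∀ x ∈ W, 1 / 2 - (if x ∈ Bd then 4 * M else 0) ≤ ∑ i, C.QQ G t x (C.θ T x i) := by
    intro x hx
    have k1 := C.QQ_ge han hK x
    have k2 := C.QQ_le hr0 hr hK x
    split_ifs with h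
    · have := C.QQ_div_bad (G := G) (t := t) T x
      linarith
    · have hx' : ∀ v ∈ G, ecc C.col C.σ T x (C.η (C.π x) v).1 < T := by
        by_contra hh
        exact h (Finset.mem_filter.2 ⟨hx, hh⟩)
      have := C.QQ_div_good (t := t) T x hx'
      linarith
  have low' := Finset.sum_le_sum low
  rw [Finset.sum_sub_distrib, Finset.sum_ite_mem, Finset.inter_eq_right.2 (Finset.filter_subset _ _),
    Finset.sum_const, Finset.sum_const, nsmul_eq_mul, nsmul_eq_mul] at low'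
  have k3 : (Bd.card : ℝ) * (4 * M) ≤ c * (3 / 4 : ℝ) ^ T * W.card * (4 * M) :=
    mul_le_mul_of_nonneg_right hbad' (by linarith)
  have k4 : 4 * M * c * (3 / 4 : ℝ) ^ T * W.card < 1 / 5 * W.card :=
    mul_lt_mul_of_pos_right hT hWpos
  nlinarith

end main

end Ctx

theorem core (j : ℕ) : ∃ (N : Type) (_ : Countable N) (_ : Infinite N) (_ : DecidableEq N)
    (F : Set (N → ℝ)) (B : ℝ) (A : Finset N),
    (∀ f ∈ F, ∀ p, |f p| ≤ B) ∧ (∀ p, Pi.single p (1 : ℝ) ∈ F) ∧ ((fun _ => (j : ℝ)) ∈ F) ∧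
    ∀ (G : Finset N) (t : N → N → ℝ),
      (∀ x x' (D : ℝ), (∀ f ∈ F, |f x - f x'| ≤ D) →
        ∀ f ∈ F, |∑ v ∈ G, (t x v - t x' v) * f v| ≤ j * D + 1) →
      (∀ a ∈ A, ∀ f ∈ F, |∑ v ∈ G, t a v * f v - f a| ≤ 1) → False := by
  classical
  let r : ℕ := 10 * (j + 1)
  let K : ℕ := 2 * r * j + 2
  let R : ℕ := 10 * (1 + 2 * K) + r
  obtain ⟨Λ, hF, hN, s, hs, hg⟩ := exists_girth Let (R + 1)
  obtain ⟨N, h1, h2, h3, col, σ, π, hσ, hc, hπ, hsurj, hW⟩ := exists_colouring s hs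
  let C : Ctx := ⟨Λ, N, s, R, col, σ, π, by simp only [R]; omega, hs, hg, hσ, hc, hπ⟩
  choose an han using hsurj
  have hj : (0 : ℝ) ≤ j := Nat.cast_nonneg j
  have hr : (r : ℝ) = 10 * (j + 1) := by simp [r]
  have hK : (K : ℝ) = 2 * r * j + 2 := by simp [K]
  have hR : (R : ℝ) = 10 * (1 + 2 * K) + r := by simp [R]
  have hK0 : (0 : ℝ) ≤ K := Nat.cast_nonneg K
  have hr1 : (1 : ℝ) ≤ r := by linarith
  have hrR : (r : ℝ) ≤ C.R := by show (r : ℝ) ≤ R; linarith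
  refine ⟨N, h1, h2, h3, C.fam r, R, Finset.univ.image an, fun f hf p => C.fam_bound hrR f hf p,
    fun p => Or.inl ⟨fun q => ?_, fun i q => ?_⟩, Or.inl ⟨fun q => ?_, fun i q => by simp⟩,
    fun G t hL hA => ?_⟩
  · by_cases h : q = p
    · subst h; simpa using hr1
    · simp [h]
  · simp only [Pi.single_apply]
    split_ifs <;> simp
  · rw [abs_of_nonneg hj]; linarith
  · let _ : DecidableEq C.N := h3
    let _ : Fintype C.Λ := hF
    refine C.contra (r := r) (L := j + 1) (K := K) (G := G) (t := t) (an := an) hr1 hrR han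
      (fun x f hf => ?_) (fun x i f hf => ?_) hW ?_ ?_
    · have k1 := hL x (an (π x)) (2 * r)
        (fun g hg => C.fam_fiber (by linarith) g hg x (an (π x)) (han _).symm) f hf
      have k2 := hA (an (π x)) (Finset.mem_image_of_mem _ (Finset.mem_univ _)) f hf
      have e : ∑ v ∈ G, t x v * f v - f (an (π x)) =
          ∑ v ∈ G, (t x v - t (an (π x)) v) * f v +
            (∑ v ∈ G, t (an (π x)) v * f v - f (an (π x))) := by
        simp only [sub_mul, Finset.sum_sub_distrib]; ring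
      show |∑ v ∈ G, t x v * f v - f (an (π x))| ≤ K
      rw [e]
      refine (abs_add_le _ _).trans ?_
      rw [hK]; linarith
    · have := hL x (σ i x) 1 (fun g hg => C.fam_edge g hg x i) f hf
      rwa [mul_one] at this
    · show ((j : ℝ) + 1) / r + (1 + 2 * K) / R ≤ 1 / 5
      have a1 : ((j : ℝ) + 1) / r ≤ 1 / 10 := by
        rw [div_le_iff₀ (by linarith)]; linarith
      have a2 : (1 + 2 * (K : ℝ)) / R ≤ 1 / 10 := by
        rw [div_le_iff₀ (by linarith)]; linarith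
      linarith
    · show (K : ℝ) / R ≤ 1 / 2
      rw [div_le_iff₀ (by linarith)]; linarith

end Crest.Agent.R115
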