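import Crest.Prelude.Def_LipschitzFree

set_option autoImplicit false

namespace Crest.Agent.R115

open Crest.AnalysisR PointedMetric

attribute [local instance] PointedMetric.metric

variable (P : PointedMetric)

/-- `L`-Lipschitz functions vanishing at the base point -/
def IsLip (L : ℝ) (f : P.M → ℝ) : Prop := (∀ x y, |f x - f y| ≤ L * dist x y) ∧ f P.base = 0

variable {P}

lemma isLip_lip1 (f : P.Lip1) : IsLip P 1 f.1 :=
  ⟨fun x y => by simpa [Real.dist_eq] using f.2.1.dist_le_mul x y, f.2.2⟩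

lemma norm_mol (a : P.Mol) : ‖a‖ = P.freeNorm a := rfl

lemma norm_le_of_forall (a : P.Mol) {C : ℝ} (h : ∀ f, IsLip P 1 f → |P.pairing a f| ≤ C) :
    ‖a‖ ≤ C := by
  rw [norm_mol]
  exact ciSup_le fun f => h f.1 (isLip_lip1 f)

lemma pairing_smul_right (a : P.Mol) (c : ℝ) (f : P.M → ℝ) :
    P.pairing a (fun x => c * f x) = c * P.pairing a f := by
  unfold pairing
  rw [Finsupp.mul_sum]
  exact Finsupp.sum_congr fun _ _ => by ring

lemma abs_pairing_le_norm (a : P.Mol) {L : ℝ} (hL : 0 < L) {f : P.M → ℝ} (hf : IsLip P L f) :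
    |P.pairing a f| ≤ L * ‖a‖ := by
  have h1 : LipschitzWith 1 (fun x => L⁻¹ * f x) := by
    refine LipschitzWith.of_dist_le_mul fun x y => ?_
    rw [Real.dist_eq, ← mul_sub, abs_mul, abs_of_pos (inv_pos.2 hL), NNReal.coe_one, one_mul,
      inv_mul_le_iff₀ hL]
    exact hf.1 x y
  have h2 := le_ciSup (P.freeNorm_bddAbove a) (⟨fun x => L⁻¹ * f x, h1, by simp [hf.2]⟩ : P.Lip1)
  simp only at h2
  rw [pairing_smul_right, abs_mul, abs_of_pos (inv_pos.2 hL), inv_mul_le_iff₀ hL] at h2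
  exact h2

variable (P)

/-- the pairing as a linear map -/
noncomputable def pairL (f : P.M → ℝ) : P.Mol →ₗ[ℝ] ℝ where
  toFun a := P.pairing a f
  map_add' a b := P.pairing_add a b f
  map_smul' c a := P.pairing_smul c a f

/-- the embedding of molecules -/
noncomputable def emb : P.Mol →ₗ[ℝ] P.FreeSpace :=
  (UniformSpace.Completion.toComplL (𝕜 := ℝ) (E := P.Mol)).toLinearMap

lemma emb_dense : DenseRange (emb P) := UniformSpace.Completion.denseRange_coe

lemma norm_emb (a : P.Mol) : ‖emb P a‖ = ‖a‖ := UniformSpace.Completion.norm_coe a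

/-- evaluation functional -/
noncomputable def ev (f : P.M → ℝ) : P.FreeSpace →L[ℝ] ℝ := (pairL P f).extendOfNorm (emb P)

/-- the single molecule -/
noncomputable def sing (x : P.M) : P.Mol := Finsupp.single x (1 : ℝ)

/-- Dirac -/
noncomputable def δ (x : P.M) : P.FreeSpace := emb P (sing P x)

variable {P}

lemma ev_emb {L : ℝ} (hL : 0 < L) {f : P.M → ℝ} (hf : IsLip P L f) (a : P.Mol) :
    ev P f (emb P a) = P.pairing a f :=
  LinearMap.extendOfNorm_eq (emb_dense P)
    ⟨L, fun a => by rw [norm_emb]; exact abs_pairing_le_norm a hL hf⟩ a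

lemma abs_ev_le {L : ℝ} (hL : 0 < L) {f : P.M → ℝ} (hf : IsLip P L f) (ξ : P.FreeSpace) :
    |ev P f ξ| ≤ L * ‖ξ‖ :=
  LinearMap.norm_extendOfNorm_apply_le (f := pairL P f) (emb_dense P) L
    (fun a => by rw [norm_emb]; exact abs_pairing_le_norm a hL hf) ξ

lemma pairing_sing (x : P.M) (f : P.M → ℝ) : P.pairing (sing P x) f = f x := by
  unfold pairing sing coeffs
  rw [Finsupp.sum_single_index (by simp), one_mul]

lemma pairing_sub (a b : P.Mol) (f : P.M → ℝ) :
    P.pairing (a - b) f = P.pairing a f - P.pairing b f := map_sub (pairL P f) a b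

lemma ev_δ {L : ℝ} (hL : 0 < L) {f : P.M → ℝ} (hf : IsLip P L f) (x : P.M) :
    ev P f (δ P x) = f x := by
  rw [δ, ev_emb hL hf, pairing_sing]

lemma norm_δ_sub (x y : P.M) : ‖δ P x - δ P y‖ ≤ dist x y := by
  rw [δ, δ, ← map_sub, norm_emb]
  refine norm_le_of_forall _ fun f hf => ?_
  rw [pairing_sub, pairing_sing, pairing_sing]
  simpa using hf.1 x y

lemma norm_δ (x : P.M) : ‖δ P x‖ ≤ dist x P.base := by
  rw [δ, norm_emb]
  refine norm_le_of_forall _ fun f hf => ?_
  rw [pairing_sing]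
  simpa [hf.2] using hf.1 x P.base

open Classical in
/-- indicator of a point -/
noncomputable def ind (v : P.M) : P.M → ℝ := fun x => if x = v then 1 else 0

lemma isLip_ind (hsep : ∀ x y : P.M, x ≠ y → 1 ≤ dist x y) {v : P.M} (hv : v ≠ P.base) :
    IsLip P 1 (ind v) := by
  refine ⟨fun x y => ?_, by simp [ind, hv.symm]⟩
  by_cases h : x = y
  · simp [h]
  · have := hsep x y h
    rw [one_mul]
    refine le_trans ?_ this
    unfold ind
    split_ifs <;> simp

lemma pairing_ind (a : P.Mol) (v : P.M) : P.pairing a (ind v) = P.coeffs a v := by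
  classical
  unfold pairing ind
  rw [Finsupp.sum, Finset.sum_eq_single v]
  · simp
  · intro b _ hb; simp [hb]
  · intro h; simp [Finsupp.notMem_support_iff.1 h]

/-- finite rank projections -/
noncomputable def proj (G : Finset P.M) : P.FreeSpace →L[ℝ] P.FreeSpace :=
  ∑ v ∈ G, (ev P (ind v)).smulRight (δ P v)

lemma proj_apply (G : Finset P.M) (ξ : P.FreeSpace) :
    proj G ξ = ∑ v ∈ G, ev P (ind v) ξ • δ P v := by
  simp [proj]

lemma proj_finite (G : Finset P.M) :
    FiniteDimensional ℝ (LinearMap.range (proj G).toLinearMap) := by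
  classical
  have : FiniteDimensional ℝ (Submodule.span ℝ ((G.image (δ P) : Finset _) : Set P.FreeSpace)) :=
    FiniteDimensional.span_finset ℝ _
  refine Submodule.finiteDimensional_of_le
    (S₂ := Submodule.span ℝ ((G.image (δ P) : Finset _) : Set P.FreeSpace)) ?_
  rintro _ ⟨ξ, rfl⟩
  show proj G ξ ∈ _
  rw [proj_apply]
  exact Submodule.sum_mem _ fun v hv => Submodule.smul_mem _ _
    (Submodule.subset_span (by simpa using ⟨v, hv, rfl⟩))

/-- the truncated molecule -/
noncomputable def cut (G : Finset P.M) (a : P.Mol) : P.Mol := ∑ v ∈ G, P.coeffs a v • sing P v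

lemma proj_emb (hsep : ∀ x y : P.M, x ≠ y → 1 ≤ dist x y) {G : Finset P.M} (hG : P.base ∉ G)
    (a : P.Mol) : proj G (emb P a) = emb P (cut G a) := by
  rw [proj_apply, cut, map_sum]
  refine Finset.sum_congr rfl fun v hv => ?_
  rw [ev_emb one_pos (isLip_ind hsep (fun h => hG (h ▸ hv))), pairing_ind, map_smul]
  rfl

open Classical in
lemma pairing_cut (G : Finset P.M) (a : P.Mol) (f : P.M → ℝ) :
    P.pairing (cut G a) f = P.pairing a (fun x => if x ∈ G then f x else 0) := by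
  have : P.pairing (cut G a) f = ∑ v ∈ G, P.coeffs a v * f v := by
    show pairL P f (cut G a) = _
    rw [cut, map_sum]
    refine Finset.sum_congr rfl fun v _ => ?_
    rw [map_smul]
    show P.coeffs a v * P.pairing (sing P v) f = _
    rw [pairing_sing]
  rw [this]
  unfold pairing
  rw [Finsupp.sum]
  simp only [mul_ite, mul_zero]
  rw [← Finset.sum_filter, Finset.filter_mem_eq_inter]
  symm
  refine Finset.sum_subset Finset.inter_subset_right fun x hx hx' => ?_
  have : x ∉ (P.coeffs a).support := fun h => hx' (Finset.mem_inter.2 ⟨h, hx⟩)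
  rw [Finsupp.notMem_support_iff.1 this, zero_mul]

lemma pairing_congr (a : P.Mol) {f g : P.M → ℝ} (h : ∀ x ∈ (P.coeffs a).support, f x = g x) :
    P.pairing a f = P.pairing a g :=
  Finsupp.sum_congr fun x hx => by rw [h x hx]

/-- the structural hypothesis -/
structure Layered (P : PointedMetric) (S : ℕ → Set P.M) : Prop where
  sep : ∀ x y : P.M, x ≠ y → 1 ≤ dist x y
  mono : Monotone S
  nb : ∀ J, P.base ∉ S J
  cover : ∀ x, x ≠ P.base → ∃ J, x ∈ S J
  bdd : ∀ J, ∃ D : ℝ, 0 < D ∧ ∀ x ∈ S J, dist x P.base ≤ D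
  far : ∀ J, ∀ x ∈ S J, ∀ y ∉ S J, dist x P.base ≤ dist x y

lemma norm_proj_le {S : ℕ → Set P.M} (h : Layered P S) {J : ℕ} {D : ℝ} (hD0 : 0 < D)
    (hD : ∀ x ∈ S J, dist x P.base ≤ D) {G : Finset P.M} (hG : ∀ v ∈ G, v ∈ S J)
    (ξ : P.FreeSpace) : ‖proj G ξ‖ ≤ 2 * D * ‖ξ‖ := by
  classical
  have hb : P.base ∉ G := fun hb => h.nb J (hG _ hb)
  refine (emb_dense P).induction_on (p := fun ξ => ‖proj G ξ‖ ≤ 2 * D * ‖ξ‖) ξ
    (isClosed_le (by fun_prop) (by fun_prop)) fun a => ?_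
  rw [proj_emb h.sep hb, norm_emb, norm_emb]
  refine norm_le_of_forall _ fun f hf => ?_
  rw [pairing_cut]
  refine abs_pairing_le_norm a (by linarith) ⟨fun x y => ?_, by simp [hb]⟩
  have key : ∀ z, |if z ∈ G then f z else 0| ≤ D := by
    intro z
    split_ifs with hz
    · have := hf.1 z P.base
      rw [hf.2, sub_zero, one_mul] at this
      exact this.trans (hD z (hG z hz))
    · simpa using hD0.le
  by_cases hxy : x = y
  · simp [hxy]
  · have h1 := h.sep x y hxy
    have h2 := abs_le.1 (key x)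
    have h3 := abs_le.1 (key y)
    have h4 : 2 * D * 1 ≤ 2 * D * dist x y := mul_le_mul_of_nonneg_left h1 (by linarith)
    rw [abs_le]; constructor <;> linarith

lemma exists_net {K : Set P.FreeSpace} (hK : IsCompact K) {η : ℝ} (hη : 0 < η) :
    ∃ s : Finset P.Mol, ∀ ξ ∈ K, ∃ a ∈ s, ‖ξ - emb P a‖ < η := by
  obtain ⟨s, hs⟩ := hK.elim_finite_subcover (fun a : P.Mol => Metric.ball (emb P a) η)
    (fun _ => Metric.isOpen_ball) (fun ξ _ => by
      obtain ⟨a, ha⟩ := (emb_dense P).exists_dist_lt ξ hη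
      exact Set.mem_iUnion.2 ⟨a, ha⟩)
  refine ⟨s, fun ξ hξ => ?_⟩
  obtain ⟨a, ha, h⟩ := Set.mem_iUnion₂.1 (hs hξ)
  exact ⟨a, ha, by rwa [Metric.mem_ball, dist_eq_norm] at h⟩

theorem exists_proj {S : ℕ → Set P.M} (h : Layered P S) {K : Set P.FreeSpace} (hK : IsCompact K)
    {η : ℝ} (hη : 0 < η) : ∃ G : Finset P.M, P.base ∉ G ∧ ∀ ξ ∈ K, ‖proj G ξ - ξ‖ ≤ η := by
  classical
  obtain ⟨s, hs⟩ := exists_net hK (η := η / 4) (by linarith)
  obtain ⟨J, hJ⟩ : ∃ J, ∀ a ∈ s, ∀ x ∈ (P.coeffs a).support, x ≠ P.base → x ∈ S J := by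
    have : ∀ x, ∃ J, x ≠ P.base → x ∈ S J := fun x => by
      by_cases hx : x = P.base
      · exact ⟨0, fun h => absurd hx h⟩
      · obtain ⟨J, hJ⟩ := h.cover x hx
        exact ⟨J, fun _ => hJ⟩
    choose lv hlv using this
    refine ⟨(s.biUnion fun a => (P.coeffs a).support).sup lv, fun a ha x hx hb => ?_⟩
    exact h.mono (Finset.le_sup (f := lv) (Finset.mem_biUnion.2 ⟨a, ha, hx⟩)) (hlv x hb)
  obtain ⟨D, hD0, hD⟩ := h.bdd J
  obtain ⟨s', hs'⟩ := exists_net hK (η := η / 4 / (2 * D + 1)) (by positivity)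
  let G : Finset P.M := (s'.biUnion fun a => (P.coeffs a).support).filter (· ∈ S J)
  have hG : ∀ v ∈ G, v ∈ S J := fun v hv => (Finset.mem_filter.1 hv).2
  have hb : P.base ∉ G := fun hb => h.nb J (hG _ hb)
  refine ⟨G, hb, fun ξ hξ => ?_⟩
  obtain ⟨a, ha, h1⟩ := hs ξ hξ
  obtain ⟨b, hb', h2⟩ := hs' ξ hξ
  have h3 := norm_proj_le h hD0 hD hG (ξ - emb P b)
  have h4 : ‖cut G b - a‖ ≤ ‖b - a‖ := by
    refine norm_le_of_forall _ fun f hf => ?_
    have hf' : IsLip P 1 (fun x => if x ∈ S J then f x else 0) := by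
      refine ⟨fun x y => ?_, by simp [h.nb J]⟩
      have k : ∀ z, |f z| ≤ dist z P.base := fun z => by simpa [hf.2] using hf.1 z P.base
      dsimp only
      split_ifs with hx hy hy
      · exact hf.1 x y
      · rw [sub_zero, one_mul]; exact (k x).trans (h.far J x hx y hy)
      · rw [zero_sub, abs_neg, one_mul, dist_comm]; exact (k y).trans (h.far J y hy x hx)
      · simp
    have := abs_pairing_le_norm (b - a) one_pos hf'
    rw [one_mul, pairing_sub] at this
    rw [pairing_sub, pairing_cut]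
    convert this using 3
    · refine pairing_congr b fun x hx => ?_
      have : x ∈ G ↔ x ∈ S J := ⟨hG x, fun k =>
        Finset.mem_filter.2 ⟨Finset.mem_biUnion.2 ⟨b, hb', hx⟩, k⟩⟩
      simp only [this]
    · refine pairing_congr a fun x hx => ?_
      by_cases k : x = P.base
      · simp [k, hf.2]
      · simp [hJ a ha x hx k]
  have e : proj G ξ - ξ = proj G (ξ - emb P b) + emb P (cut G b - a) - (ξ - emb P a) := by
    rw [map_sub, map_sub, proj_emb h.sep hb]; abel
  have h5 : ‖b - a‖ ≤ ‖ξ - emb P a‖ + ‖ξ - emb P b‖ := by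
    rw [← norm_emb, map_sub]
    have : emb P b - emb P a = (ξ - emb P a) - (ξ - emb P b) := by abel
    rw [this]; exact norm_sub_le _ _
  have h6 : (2 * D + 1) * ‖ξ - emb P b‖ ≤ η / 4 := by
    rw [lt_div_iff₀ (by linarith)] at h2; linarith
  rw [e]
  refine (norm_sub_le _ _).trans ?_
  have h7 := norm_add_le (proj G (ξ - emb P b)) (emb P (cut G b - a))
  rw [norm_emb] at h7
  linarith

theorem hasAP {S : ℕ → Set P.M} (h : Layered P S) : HasAP P.FreeSpace := by
  intro K hK ε hε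
  obtain ⟨G, -, hG⟩ := exists_proj h hK hε
  exact ⟨proj G, proj_finite G, hG⟩

theorem of_hasBAP {S : ℕ → Set P.M} (h : Layered P S) (hB : HasBAP P.FreeSpace) :
    ∃ j : ℕ, ∀ (J : ℕ) (A : Finset P.M), (∀ a ∈ A, a ∈ S J) →
      ∃ (G : Finset P.M) (t : P.M → P.M → ℝ),
      (∀ x ∈ S J, ∀ x' ∈ S J, ∀ f, IsLip P 1 f →
        |∑ v ∈ G, (t x v - t x' v) * f v| ≤ j * dist x x' + 1) ∧
      (∀ a ∈ A, ∀ f, IsLip P 1 f → |∑ v ∈ G, t a v * f v - f a| ≤ 1) := by
  classical
  obtain ⟨lam, hlam⟩ := hB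
  refine ⟨⌈lam⌉₊, fun J A hA => ?_⟩
  obtain ⟨T, hT, hTn, hTA⟩ := hlam ((A.image (δ P) : Finset _) : Set P.FreeSpace)
    (Finset.finite_toSet _).isCompact (1 / 2) (by norm_num)
  obtain ⟨D, hD0, hD⟩ := h.bdd J
  have hTn' : ‖T‖ ≤ ⌈lam⌉₊ := hTn.trans (Nat.le_ceil _)
  let E := LinearMap.range T.toLinearMap
  have hK : IsCompact (E.subtype '' Metric.closedBall (0 : E) (‖T‖ * D)) :=
    (isCompact_closedBall _ _).image continuous_subtype_val
  obtain ⟨G, hb, hG⟩ := exists_proj h hK (η := 1 / 2) (by norm_num)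
  have hmem : ∀ x ∈ S J, T (δ P x) ∈ E.subtype '' Metric.closedBall (0 : E) (‖T‖ * D) := by
    intro x hx
    refine ⟨⟨T (δ P x), ⟨δ P x, rfl⟩⟩, ?_, rfl⟩
    rw [mem_closedBall_zero_iff]
    exact (T.le_opNorm _).trans
      (mul_le_mul_of_nonneg_left ((norm_δ x).trans (hD x hx)) (norm_nonneg _))
  have key : ∀ x ∈ S J, ∀ f, IsLip P 1 f →
      |∑ v ∈ G, ev P (ind v) (T (δ P x)) * f v - ev P f (T (δ P x))| ≤ 1 / 2 := by
    intro x hx f hf
    have h1 := abs_ev_le one_pos hf (proj G (T (δ P x)) - T (δ P x))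
    rw [map_sub, proj_apply, map_sum] at h1
    simp only [map_smul, ev_δ one_pos hf, smul_eq_mul] at h1
    rw [← proj_apply] at h1
    have := hG _ (hmem x hx)
    linarith
  refine ⟨G, fun x v => ev P (ind v) (T (δ P x)), fun x hx x' hx' f hf => ?_, fun a ha f hf => ?_⟩
  · have h1 := abs_le.1 (key x hx f hf)
    have h2 := abs_le.1 (key x' hx' f hf)
    have h3 := abs_ev_le one_pos hf (T (δ P x - δ P x'))
    have h4 : ‖T (δ P x - δ P x')‖ ≤ ⌈lam⌉₊ * dist x x' :=
      (T.le_opNorm _).trans (mul_le_mul hTn' (norm_δ_sub x x') (norm_nonneg _) (by positivity))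
    rw [one_mul] at h3
    have h5 := abs_le.1 (h3.trans h4)
    rw [map_sub, map_sub] at h5
    simp only [sub_mul, Finset.sum_sub_distrib]
    rw [abs_le]; constructor <;> linarith
  · have h1 := abs_le.1 (key a (hA a ha) f hf)
    have h2 := hTA (δ P a) (by simpa using ⟨a, ha, rfl⟩)
    have h4 := abs_ev_le one_pos hf (T (δ P a) - δ P a)
    rw [one_mul] at h4
    have h3 := abs_le.1 (h4.trans h2)
    rw [map_sub, ev_δ one_pos hf] at h3
    rw [abs_le]; constructor <;> linarith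

end Crest.Agent.R115
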