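import Mathlib

set_option autoImplicit false

namespace Crest.Agent.R115

/-- reduced words -/
abbrev Red {A : Type} (u : List A) : Prop := u.IsChain (· ≠ ·)

/-- walking along a word -/
def walk {A Ω : Type} (s : A → Ω → Ω) (ω : Ω) (u : List A) : Ω := u.foldl (fun ω a => s a ω) ω

@[simp] lemma walk_nil {A Ω : Type} (s : A → Ω → Ω) (ω : Ω) : walk s ω [] = ω := rfl
@[simp] lemma walk_cons {A Ω : Type} (s : A → Ω → Ω) (ω : Ω) (a : A) (u : List A) :
    walk s ω (a :: u) = walk s (s a ω) u := rfl
lemma walk_append {A Ω : Type} (s : A → Ω → Ω) (ω : Ω) (u u' : List A) :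
    walk s ω (u ++ u') = walk s (walk s ω u) u' := by
  simp [walk, List.foldl_append]

/-- girth condition -/
def Girth {A Ω : Type} (s : A → Ω → Ω) (g : ℕ) : Prop :=
  ∀ ω u u', Red u → Red u' → u.length ≤ g → u'.length ≤ g → walk s ω u = walk s ω u' → u = u'

section
variable {A : Type} [DecidableEq A]

def tau (g : ℕ) (a : A) (l : List A) : List A :=
  if l.head? = some a then l.tail else if l.length < g then a :: l else l

lemma tau_red (g : ℕ) (a : A) (l : List A) (h : Red l ∧ l.length ≤ g) :
    Red (tau g a l) ∧ (tau g a l).length ≤ g := by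
  unfold tau
  split_ifs with h1 h2
  · exact ⟨h.1.tail, by simp; omega⟩
  · refine ⟨List.isChain_cons.2 ⟨fun y hy hya => h1 ?_, h.1⟩, by simp; omega⟩
    rw [hya]; exact hy
  · exact h

lemma tau_tau (g : ℕ) (a : A) (l : List A) (h : Red l ∧ l.length ≤ g) :
    tau g a (tau g a l) = l := by
  by_cases h1 : l.head? = some a
  · obtain ⟨l', rfl⟩ : ∃ l', l = a :: l' := by
      cases l with
      | nil => simp at h1
      | cons b l' => simp at h1; exact ⟨l', by rw [h1]⟩
    have h2 : tau g a (a :: l') = l' := by simp [tau]
    rw [h2]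
    have h3 : ¬ l'.head? = some a := fun h3 => (List.isChain_cons.1 h.1).1 a h3 rfl
    have h4 : l'.length < g := by have := h.2; simp at this; omega
    simp [tau, h3, h4]
  · by_cases h2 : l.length < g
    · have : tau g a l = a :: l := by simp [tau, h1, h2]
      rw [this]; simp [tau]
    · have : tau g a l = l := by simp [tau, h1, h2]
      rw [this, this]

abbrev XS (A : Type) (g : ℕ) : Type := {l : List A // Red l ∧ l.length ≤ g}

def tauX (g : ℕ) (a : A) (x : XS A g) : XS A g := ⟨tau g a x.1, tau_red g a x.1 x.2⟩

lemma tauX_invol (g : ℕ) (a : A) : Function.Involutive (tauX g a) :=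
  fun x => Subtype.ext (tau_tau g a x.1 x.2)

noncomputable def tauP (g : ℕ) (a : A) : Equiv.Perm (XS A g) := (tauX_invol g a).toPerm _

lemma walk_perm (g : ℕ) (u : List A) (ω : Equiv.Perm (XS A g)) (x : XS A g) :
    ((walk (fun a (ω : Equiv.Perm (XS A g)) => tauP g a * ω) ω u) x).1
      = walk (tau g) (ω x).1 u := by
  induction u generalizing ω with
  | nil => rfl
  | cons a u ih => rw [walk_cons, ih]; rfl

lemma walk_tau (g : ℕ) (u acc : List A) (h : Red (acc.reverse ++ u))
    (hl : acc.length + u.length ≤ g) : walk (tau g) acc u = u.reverse ++ acc := by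
  induction u generalizing acc with
  | nil => simp
  | cons a u ih =>
    rw [walk_cons]
    have h1 : ¬ acc.head? = some a := by
      intro h1
      have := (List.isChain_append.1 h).2.2 a (by simpa using h1) a (by simp)
      exact this rfl
    have h2 : acc.length < g := by simp at hl; omega
    have : tau g a acc = a :: acc := by simp [tau, h1, h2]
    rw [this, ih]
    · simp
    · simpa using h
    · simp at hl ⊢; omega

end

theorem exists_girth (A : Type) [Finite A] (g : ℕ) :
    ∃ (Ω : Type) (_ : Fintype Ω) (_ : Nonempty Ω) (s : A → Ω → Ω),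
      (∀ a ω, s a (s a ω) = ω) ∧ Girth s g := by
  classical
  have : Finite (XS A g) := by
    have h := (List.finite_length_le A g).subset
      (t := {l : List A | Red l ∧ l.length ≤ g}) (fun l hl => hl.2)
    exact h
  refine ⟨Equiv.Perm (XS A g), Fintype.ofFinite _, ⟨1⟩, fun a ω => tauP g a * ω, ?_, ?_⟩
  · intro a ω
    show tauP g a * (tauP g a * ω) = ω
    rw [← mul_assoc]
    have : tauP g a * tauP g a = 1 := by
      ext x; simp [tauP, tauX_invol g a x]
    rw [this, one_mul]
  · intro ω u u' hu hu' hl hl' h
    let x0 : XS A g := ⟨[], by simp, by simp⟩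
    have h1 := walk_perm g u ω (ω.symm x0)
    have h2 := walk_perm g u' ω (ω.symm x0)
    rw [h, h2] at h1
    simp only [Equiv.apply_symm_apply, x0] at h1
    rw [walk_tau g u [] (by simpa using hu) (by simpa using hl),
      walk_tau g u' [] (by simpa using hu') (by simpa using hl')] at h1
    simpa using h1.symm

end Crest.Agent.R115
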