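import Crest.Agent.R115.Free
import Crest.Agent.R115.Core

set_option autoImplicit false

namespace Crest.Agent.R115

open Crest.AnalysisR PointedMetric

/-- metric defined by a family of functions -/
@[reducible] noncomputable def famMetric {M : Type} (F : Set (M → ℝ)) (b : M → ℝ)
    (hb : ∀ f ∈ F, ∀ p, |f p| ≤ b p) (hne : F.Nonempty)
    (hsep : ∀ p q, p ≠ q → ∃ f ∈ F, 1 ≤ |f p - f q|) : MetricSpace M :=
  have bdd : ∀ p q, BddAbove (Set.range fun f : F => |f.1 p - f.1 q|) := fun p q =>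
    ⟨b p + b q, by
      rintro _ ⟨f, rfl⟩
      exact (abs_sub _ _).trans (add_le_add (hb _ f.2 p) (hb _ f.2 q))⟩
  have : Nonempty F := hne.to_subtype
  { dist := fun p q => ⨆ f : F, |f.1 p - f.1 q|
    dist_self := fun p => by simp
    dist_comm := fun p q => by simp only [abs_sub_comm]
    dist_triangle := fun p q r => ciSup_le fun f =>
      (abs_sub_le _ _ _).trans (add_le_add (le_ciSup (bdd p q) f) (le_ciSup (bdd q r) f))
    eq_of_dist_eq_zero := fun {p q} h => by
      by_contra hpq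
      obtain ⟨f, hf, h1⟩ := hsep p q hpq
      have h2 : |f p - f q| ≤ ⨆ f : F, |f.1 p - f.1 q| := le_ciSup (bdd p q) ⟨f, hf⟩
      have h3 : (⨆ f : F, |f.1 p - f.1 q|) = 0 := h
      linarith }

lemma famMetric_ge {M : Type} (F : Set (M → ℝ)) (b : M → ℝ)
    (hb : ∀ f ∈ F, ∀ p, |f p| ≤ b p) (hne : F.Nonempty)
    (hsep : ∀ p q, p ≠ q → ∃ f ∈ F, 1 ≤ |f p - f q|) (f : M → ℝ) (hf : f ∈ F) (p q : M) :
    |f p - f q| ≤ @dist M (famMetric F b hb hne hsep).toDist p q := by
  have bdd : BddAbove (Set.range fun f : F => |f.1 p - f.1 q|) :=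
    ⟨b p + b q, by
      rintro _ ⟨f, rfl⟩
      exact (abs_sub _ _).trans (add_le_add (hb _ f.2 p) (hb _ f.2 q))⟩
  exact le_ciSup bdd ⟨f, hf⟩

lemma famMetric_le {M : Type} (F : Set (M → ℝ)) (b : M → ℝ)
    (hb : ∀ f ∈ F, ∀ p, |f p| ≤ b p) (hne : F.Nonempty)
    (hsep : ∀ p q, p ≠ q → ∃ f ∈ F, 1 ≤ |f p - f q|) (p q : M) (D : ℝ)
    (h : ∀ f ∈ F, |f p - f q| ≤ D) :
    @dist M (famMetric F b hb hne hsep).toDist p q ≤ D := by
  have : Nonempty F := hne.to_subtype
  exact ciSup_le fun f => h f.1 f.2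

attribute [local instance] PointedMetric.metric

lemma glue (N : ℕ → Type) (hC : ∀ j, Countable (N j)) (hI : ∀ j, Infinite (N j))
    (hD : ∀ j, DecidableEq (N j)) (F : ∀ j, Set (N j → ℝ)) (B : ℕ → ℝ)
    (hB : ∀ j, ∀ f ∈ F j, ∀ p, |f p| ≤ B j) (hsing : ∀ j p, Pi.single p (1 : ℝ) ∈ F j)
    (hconst : ∀ j : ℕ, (fun _ => (j : ℝ)) ∈ F j) :
    ∃ (P : PointedMetric) (em : ∀ j, N j → P.M) (ext : ∀ j, (N j → ℝ) → P.M → ℝ),
      Countable P.M ∧ (∀ j, Function.Injective (em j)) ∧ (∀ j p, em j p ≠ P.base) ∧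
      (∀ x, x ≠ P.base → ∃ j p, em j p = x) ∧ (∀ j f p, ext j f (em j p) = f p) ∧
      (∀ j f x, (¬ ∃ p, em j p = x) → ext j f x = 0) ∧
      (∀ j k f p, j ≠ k → ext j f (em k p) = 0) ∧
      (∀ j, ∀ f ∈ F j, ∀ x y : P.M, |ext j f x - ext j f y| ≤ dist x y) ∧
      (∀ (x y : P.M) (D : ℝ), (∀ j, ∀ f ∈ F j, |ext j f x - ext j f y| ≤ D) → dist x y ≤ D) ∧
      (∀ x y : P.M, x ≠ y → 1 ≤ dist x y) := by
  classical
  let M : Type := Option (Σ j, N j)
  let em : ∀ j, N j → M := fun j p => some ⟨j, p⟩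
  have em_inj : ∀ j, Function.Injective (em j) := fun j p q h =>
    sigma_mk_injective (Option.some.inj h)
  let ext : ∀ j, (N j → ℝ) → M → ℝ := fun j f => Function.extend (em j) f 0
  have ext_em : ∀ j f p, ext j f (em j p) = f p := fun j f p => (em_inj j).extend_apply f 0 p
  have ext_out : ∀ j f x, (¬ ∃ p, em j p = x) → ext j f x = 0 := fun j f x h =>
    Function.extend_apply' f (0 : M → ℝ) x h
  have ext_none : ∀ j f, ext j f none = 0 := fun j f => ext_out j f none (by simp [em])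
  have ext_ne : ∀ j k f p, j ≠ k → ext j f (em k p) = 0 := fun j k f p h => ext_out j f _ (by
    rintro ⟨q, hq⟩
    exact h (congrArg Sigma.fst (Option.some.inj hq)))
  have hB0 : ∀ j, 0 ≤ B j := fun j =>
    (abs_nonneg _).trans (hB j _ (hconst j) (Classical.arbitrary _))
  let 𝓖 : Set (M → ℝ) := {g | ∃ j, ∃ f ∈ F j, g = ext j f}
  let b : M → ℝ := fun x => x.elim 0 (fun y => B y.1)
  have hb : ∀ g ∈ 𝓖, ∀ x, |g x| ≤ b x := by
    rintro _ ⟨j, f, hf, rfl⟩ x
    rcases x with _ | ⟨k, p⟩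
    · rw [ext_none]; simp [b]
    · by_cases h : j = k
      · subst h
        exact (ext_em j f p).symm ▸ hB j f hf p
      · have := ext_ne j k f p h
        simp only [em] at this
        rw [this]; simpa [b] using hB0 k
  have hne : 𝓖.Nonempty := ⟨_, 0, _, hconst 0, rfl⟩
  have hsep0 : ∀ j (p : N j) (y : M), em j p ≠ y → ∃ g ∈ 𝓖, 1 ≤ |g (em j p) - g y| := by
    intro j p y h
    refine ⟨_, ⟨j, _, hsing j p, rfl⟩, ?_⟩
    rw [ext_em]
    by_cases hy : ∃ q, em j q = y
    · obtain ⟨q, rfl⟩ := hy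
      have : q ≠ p := fun k => h (by rw [k])
      rw [ext_em]; simp [this]
    · rw [ext_out j _ y hy]; simp
  have hsep : ∀ x y, x ≠ y → ∃ g ∈ 𝓖, 1 ≤ |g x - g y| := by
    intro x y h
    rcases x with _ | ⟨j, p⟩
    · rcases y with _ | ⟨k, q⟩
      · exact absurd rfl h
      · obtain ⟨g, hg, h1⟩ := hsep0 k q none h.symm
        exact ⟨g, hg, by rwa [abs_sub_comm]⟩
    · exact hsep0 j p y h
  refine ⟨⟨M, famMetric 𝓖 b hb hne hsep, none⟩, em, ext,
    inferInstanceAs (Countable (Option (Σ j, N j))), em_inj, fun j p => by simp [em], ?_, ext_em,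
    ext_out, ext_ne, fun j f hf => famMetric_ge 𝓖 b hb hne hsep _ ⟨j, f, hf, rfl⟩,
    fun x y D h => famMetric_le 𝓖 b hb hne hsep x y D ?_, fun x y h => ?_⟩
  · rintro (_ | ⟨j, p⟩) hx
    · exact absurd rfl hx
    · exact ⟨j, p, rfl⟩
  · rintro _ ⟨j, f, hf, rfl⟩
    exact h j f hf
  · obtain ⟨g, hg, h1⟩ := hsep x y h
    exact h1.trans (famMetric_ge 𝓖 b hb hne hsep g hg x y)

theorem main : ∃ P : PointedMetric, P.IsCountableSeparatedUnboundedNonproper ∧
    HasAP P.FreeSpace ∧ ¬ HasBAP P.FreeSpace := by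
  classical
  choose N hC hI hD F B A hB hsing hconst hcore using core
  obtain ⟨P, em, ext, hcount, em_inj, em_ne, cover, ext_em, ext_out, ext_ne, dge, dle, sep⟩ :=
    glue N hC hI hD F B hB hsing hconst
  have ext_none : ∀ j f, ext j f P.base = 0 := fun j f => ext_out j f _ (by
    rintro ⟨p, hp⟩; exact em_ne j p hp)
  have hB0 : ∀ j, 0 ≤ B j := fun j =>
    (abs_nonneg _).trans (hB j _ (hconst j) (Classical.arbitrary _))
  have dbase : ∀ j (p : N j), dist (em j p : P.M) P.base ≤ B j := fun j p => by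
    refine dle _ _ _ fun k f hf => ?_
    rw [ext_none, sub_zero]
    by_cases h : k = j
    · subst h; rw [ext_em]; exact hB k f hf p
    · rw [ext_ne k j f p h]; simpa using hB0 j
  let S : ℕ → Set P.M := fun J => {x | ∃ j ≤ J, ∃ p, em j p = x}
  have hL : Layered P S := by
    refine ⟨sep, ?_, ?_, ?_, ?_, ?_⟩
    · rintro J J' h x ⟨j, hj, p, rfl⟩
      exact ⟨j, hj.trans h, p, rfl⟩
    · rintro J ⟨j, -, p, hp⟩
      exact em_ne j p hp
    · intro x hx
      obtain ⟨j, p, rfl⟩ := cover x hx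
      exact ⟨j, j, le_rfl, p, rfl⟩
    · intro J
      refine ⟨1 + ∑ j ∈ Finset.range (J + 1), B j, ?_, ?_⟩
      · have := Finset.sum_nonneg (s := Finset.range (J + 1)) fun j _ => hB0 j
        linarith
      · rintro _ ⟨j, hj, p, rfl⟩
        have := Finset.single_le_sum (s := Finset.range (J + 1)) (fun j _ => hB0 j)
          (Finset.mem_range.2 (Nat.lt_succ_of_le hj))
        have := dbase j p
        linarith
    · rintro J _ ⟨j, hj, p, rfl⟩ y hy
      refine dle _ _ _ ?_
      intro k f hf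
      have e : ext k f P.base = 0 := ext_none k f
      by_cases h : k = j
      · subst h
        have := dge k f hf (em k p) y
        rwa [ext_out k f y (fun ⟨q, hq⟩ => hy ⟨k, hj, q, hq⟩), ← e] at this
      · rw [ext_ne k j f p h, e]; simp
  refine ⟨P, ⟨hcount, sep, ?_, ?_⟩, hasAP hL, ?_⟩
  · intro h
    obtain ⟨C, hC⟩ := Metric.isBounded_iff.1 h
    obtain ⟨j, hj⟩ := exists_nat_gt C
    have h1 := hC (Set.mem_univ (em j (Classical.arbitrary _) : P.M)) (Set.mem_univ P.base)
    have h2 := dge j _ (hconst j) (em j (Classical.arbitrary _)) P.base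
    have e : ext j (fun _ => (j : ℝ)) P.base = 0 := ext_none j _
    rw [ext_em, e, sub_zero, Nat.abs_cast] at h2
    linarith
  · intro h
    have hd : DiscreteTopology P.M := by
      refine discreteTopology_iff_isOpen_singleton.2 fun x => ?_
      have : ({x} : Set P.M) = Metric.ball x 1 := by
        ext y
        simp only [Set.mem_singleton_iff, Metric.mem_ball]
        refine ⟨fun k => by simp [k], fun k => ?_⟩
        by_contra hk
        have := sep y x hk
        linarith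
      rw [this]; exact Metric.isOpen_ball
    have h1 : (Metric.closedBall P.base (B 0)).Finite :=
      isCompact_iff_finite.1 (isCompact_closedBall _ _)
    refine Set.infinite_range_of_injective (em_inj 0) (h1.subset ?_)
    rintro _ ⟨p, rfl⟩
    exact dbase 0 p
  · intro h
    obtain ⟨j, hj⟩ := of_hasBAP hL h
    obtain ⟨G, t, h1, h2⟩ := hj j ((A j).image (em j)) (fun a ha => by
      obtain ⟨p, -, rfl⟩ := Finset.mem_image.1 ha
      exact ⟨j, le_rfl, p, rfl⟩)
    have lip : ∀ f ∈ F j, IsLip P 1 (ext j f) := fun f hf =>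
      ⟨fun x y => by rw [one_mul]; exact dge j f hf x y, ext_none j f⟩
    have hsum : ∀ (c : P.M → ℝ) (f : N j → ℝ),
        ∑ v ∈ G.preimage (em j) (em_inj j).injOn, c (em j v) * f v =
          ∑ v ∈ G, c v * ext j f v := by
      intro c f
      rw [← Finset.sum_preimage (em j) G (em_inj j).injOn (fun v => c v * ext j f v)
        (fun x _ hx => by rw [ext_out j f x hx, mul_zero])]
      exact Finset.sum_congr rfl fun v _ => by rw [ext_em]
    refine hcore j (G.preimage (em j) (em_inj j).injOn) (fun x v => t (em j x) (em j v))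
      (fun x x' D hD f hf => ?_) (fun a ha f hf => ?_)
    · have k1 := h1 (em j x) ⟨j, le_rfl, x, rfl⟩ (em j x') ⟨j, le_rfl, x', rfl⟩ _ (lip f hf)
      have k2 : dist (em j x : P.M) (em j x') ≤ D := by
        refine dle _ _ _ ?_
        intro k g hg
        by_cases hk : k = j
        · subst hk
          rw [ext_em, ext_em]; exact hD g hg
        · rw [ext_ne k j g x hk, ext_ne k j g x' hk]
          simpa using (abs_nonneg _).trans (hD f hf)
      rw [hsum (fun v => t (em j x) v - t (em j x') v) f]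
      have := mul_le_mul_of_nonneg_left k2 (Nat.cast_nonneg j : (0 : ℝ) ≤ j)
      exact k1.trans (by linarith)
    · have k1 := h2 (em j a) (Finset.mem_image_of_mem _ ha) _ (lip f hf)
      rw [hsum (fun v => t (em j a) v) f]
      rwa [ext_em] at k1

end Crest.Agent.R115
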