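import Crest.Agent.R115.Colour

set_option autoImplicit false

namespace Crest.Agent.R115

section
variable {A : Type} [DecidableEq A]

/-- right multiplication of a reduced word by a letter -/
def rmul : List A → A → List A
  | [], b => [b]
  | [a], b => if a = b then [] else [a, b]
  | a :: a' :: u, b => a :: rmul (a' :: u) b

lemma rmul_eq (u : List A) (b : A) :
    rmul u b = if u.getLast? = some b then u.dropLast else u ++ [b] := by
  induction u with
  | nil => simp [rmul]
  | cons a u ih =>
    cases u with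
    | nil => by_cases h : a = b <;> simp [rmul, h]
    | cons a' u =>
      rw [rmul, ih]
      split_ifs with h1 h2 h2
      · simp
      · exact absurd (by simpa [List.getLast?_cons_cons] using h1) h2
      · exact absurd (by simpa [List.getLast?_cons_cons] using h2) h1
      · simp

lemma rmul_red (u : List A) (b : A) (h : Red u) : Red (rmul u b) := by
  rw [rmul_eq]
  split_ifs with h1
  · exact h.prefix (List.dropLast_prefix u)
  · refine List.isChain_append.2 ⟨h, by simp, ?_⟩
    intro x hx y hy hxy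
    simp at hy
    subst hy; subst hxy
    exact h1 hx

lemma rmul_length (u : List A) (b : A) : (rmul u b).length ≤ u.length + 1 := by
  rw [rmul_eq]
  split_ifs <;> simp
  omega

lemma walk_rmul {Λ : Type} (s : A → Λ → Λ) (hs : ∀ a μ, s a (s a μ) = μ) (μ : Λ) (u : List A)
    (b : A) : walk s μ (rmul u b) = s b (walk s μ u) := by
  induction u generalizing μ with
  | nil => simp [rmul]
  | cons a u ih =>
    cases u with
    | nil => by_cases h : a = b <;> simp [rmul, h, hs]
    | cons a' u => rw [rmul, walk_cons, ih, walk_cons s μ]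

/-- left multiplication -/
def lmul (a : A) (u : List A) : List A := if u.head? = some a then u.tail else a :: u

lemma lmul_red (a : A) (u : List A) (h : Red u) : Red (lmul a u) := by
  unfold lmul
  split_ifs with h1
  · exact h.tail
  · refine List.isChain_cons.2 ⟨fun y hy hya => h1 ?_, h⟩
    rw [hya]; exact hy

lemma lmul_length (a : A) (u : List A) : (lmul a u).length ≤ u.length + 1 := by
  unfold lmul
  split_ifs <;> simp
  omega

lemma walk_lmul {Λ : Type} (s : A → Λ → Λ) (hs : ∀ a μ, s a (s a μ) = μ) (μ : Λ) (u : List A)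
    (a : A) : walk s (s a μ) (lmul a u) = walk s μ u := by
  unfold lmul
  split_ifs with h1
  · cases u with
    | nil => simp at h1
    | cons b u => simp at h1; subst h1; simp
  · simp [hs]

end

section
variable {A Λ : Type} (s : A → Λ → Λ) (R : ℕ)

open Classical in
/-- the reduced word from `μ` to `ν` -/
noncomputable def lag (μ ν : Λ) : List A :=
  if h : ∃ u, Red u ∧ u.length ≤ R + 1 ∧ walk s μ u = ν then h.choose else []

open Classical in
/-- truncated distance -/
noncomputable def len (μ ν : Λ) : ℕ :=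
  if ∃ u, Red u ∧ u.length ≤ R + 1 ∧ walk s μ u = ν then min (lag s R μ ν).length R else R

variable {s R}

lemma lag_eq (hg : Girth s (R + 1)) {μ ν : Λ} {u : List A} (h1 : Red u) (h2 : u.length ≤ R + 1)
    (h3 : walk s μ u = ν) : lag s R μ ν = u := by
  have h : ∃ u, Red u ∧ u.length ≤ R + 1 ∧ walk s μ u = ν := ⟨u, h1, h2, h3⟩
  unfold lag
  rw [dif_pos h]
  obtain ⟨k1, k2, k3⟩ := h.choose_spec
  exact hg μ _ _ k1 h1 k2 h2 (k3.trans h3.symm)

lemma len_eq (hg : Girth s (R + 1)) {μ ν : Λ} {u : List A} (h1 : Red u) (h2 : u.length ≤ R + 1)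
    (h3 : walk s μ u = ν) : len s R μ ν = min u.length R := by
  unfold len
  rw [if_pos ⟨u, h1, h2, h3⟩, lag_eq hg h1 h2 h3]

lemma len_le (μ ν : Λ) : len s R μ ν ≤ R := by
  unfold len
  split_ifs
  · exact min_le_right _ _
  · exact le_rfl

lemma lag_spec {μ ν : Λ} (h : len s R μ ν < R) :
    Red (lag s R μ ν) ∧ (lag s R μ ν).length = len s R μ ν ∧ walk s μ (lag s R μ ν) = ν := by
  unfold len at h ⊢
  split_ifs at h ⊢ with h1
  · have h2 : lag s R μ ν = h1.choose := by unfold lag; rw [dif_pos h1]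
    obtain ⟨k1, -, k3⟩ := h1.choose_spec
    rw [← h2] at k1 k3
    exact ⟨k1, by omega, k3⟩
  · omega

lemma len_self (hg : Girth s (R + 1)) (μ : Λ) : len s R μ μ = 0 := by
  rw [len_eq hg (μ := μ) (ν := μ) (u := []) (by simp) (by simp) rfl]; simp

variable [DecidableEq A]

lemma lag_left (hg : Girth s (R + 1)) (hs : ∀ a μ, s a (s a μ) = μ) {μ ν : Λ}
    (h : len s R μ ν < R) (a : A) : lag s R (s a μ) ν = lmul a (lag s R μ ν) := by
  obtain ⟨h1, h2, h3⟩ := lag_spec h
  refine lag_eq hg (lmul_red _ _ h1) ?_ (by rw [walk_lmul s hs, h3])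
  have := lmul_length a (lag s R μ ν); omega

lemma lag_right (hg : Girth s (R + 1)) (hs : ∀ a μ, s a (s a μ) = μ) {μ ν : Λ} {u : List A}
    (h1 : Red u) (h2 : u.length ≤ R) (h3 : walk s μ u = ν) (b : A) :
    lag s R μ (s b ν) = rmul u b := by
  refine lag_eq hg (rmul_red _ _ h1) ?_ (by rw [walk_rmul s hs, h3])
  have := rmul_length u b; omega

lemma len_left_le (hg : Girth s (R + 1)) (hs : ∀ a μ, s a (s a μ) = μ) (μ ν : Λ) (a : A) :
    len s R (s a μ) ν ≤ len s R μ ν + 1 := by
  by_cases h : len s R μ ν < R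
  · obtain ⟨h1, h2, h3⟩ := lag_spec h
    have := lmul_length a (lag s R μ ν)
    rw [len_eq hg (lmul_red a _ h1) (by omega) (by rw [walk_lmul s hs, h3])]
    omega
  · have := len_le (s := s) (R := R) (s a μ) ν; omega

lemma len_right_le (hg : Girth s (R + 1)) (hs : ∀ a μ, s a (s a μ) = μ) (μ ν : Λ) (a : A) :
    len s R μ (s a ν) ≤ len s R μ ν + 1 := by
  by_cases h : len s R μ ν < R
  · obtain ⟨h1, h2, h3⟩ := lag_spec h
    have := rmul_length (lag s R μ ν) a
    rw [len_eq hg (rmul_red _ a h1) (by omega) (by rw [walk_rmul s hs, h3])]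
    omega
  · have := len_le (s := s) (R := R) μ (s a ν); omega

lemma len_left_abs (hg : Girth s (R + 1)) (hs : ∀ a μ, s a (s a μ) = μ) (μ ν : Λ) (a : A) :
    |(len s R μ ν : ℝ) - len s R (s a μ) ν| ≤ 1 := by
  have h1 := len_left_le hg hs μ ν a
  have h2 := len_left_le hg hs (s a μ) ν a
  rw [hs] at h2
  have h1' : (len s R (s a μ) ν : ℝ) ≤ len s R μ ν + 1 := by exact_mod_cast h1
  have h2' : (len s R μ ν : ℝ) ≤ len s R (s a μ) ν + 1 := by exact_mod_cast h2
  rw [abs_le]; constructor <;> linarith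

lemma len_right_abs (hg : Girth s (R + 1)) (hs : ∀ a μ, s a (s a μ) = μ) (μ ν : Λ) (a : A) :
    |(len s R μ ν : ℝ) - len s R μ (s a ν)| ≤ 1 := by
  have h1 := len_right_le hg hs μ ν a
  have h2 := len_right_le hg hs μ (s a ν) a
  rw [hs] at h2
  have h1' : (len s R μ (s a ν) : ℝ) ≤ len s R μ ν + 1 := by exact_mod_cast h1
  have h2' : (len s R μ ν : ℝ) ≤ len s R μ (s a ν) + 1 := by exact_mod_cast h2
  rw [abs_le]; constructor <;> linarith

/-- both directions of the right move -/
lemma lag_right_both (hg : Girth s (R + 1)) (hs : ∀ a μ, s a (s a μ) = μ) {μ ν : Λ} (b : A)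
    (h : len s R μ ν < R ∨ len s R μ (s b ν) < R) :
    lag s R μ (s b ν) = rmul (lag s R μ ν) b ∧ lag s R μ ν = rmul (lag s R μ (s b ν)) b := by
  have key : ∀ ν, len s R μ ν < R →
      lag s R μ (s b ν) = rmul (lag s R μ ν) b ∧ lag s R μ ν = rmul (lag s R μ (s b ν)) b := by
    intro ν h
    obtain ⟨h1, h2, h3⟩ := lag_spec h
    have e1 := lag_right hg hs h1 (by omega) h3 b
    refine ⟨e1, ?_⟩
    have := rmul_length (lag s R μ ν) b
    have e2 := lag_right hg hs (μ := μ) (rmul_red _ b h1) (by omega) rfl b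
    rw [walk_rmul s hs, hs, h3] at e2
    rw [e1]; exact e2
  rcases h with h | h
  · exact key ν h
  · have := key _ h
    rw [hs] at this
    exact ⟨this.2, this.1⟩

end

end Crest.Agent.R115
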