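import Crest.Agent.R115.Lag

set_option autoImplicit false

namespace Crest.Agent.R115

abbrev Let : Type := Fin 3 × Fin 4

section
variable {N : Type} (col : N → Fin 3 → Fin 4) (σ : Fin 3 → N → N)

/-- normal form -/
def nf : N → List Let → N × List Let
  | v, [] => (v, [])
  | v, a :: u => if col v a.1 = a.2 then nf (σ a.1 v) u else (v, a :: u)

/-- right action on states -/
def act (b : Let) (z : N × List Let) : N × List Let := nf col σ z.1 (rmul z.2 b)

variable {col σ}

lemma nf_lmul (hσ : ∀ i x, σ i (σ i x) = x) (hc : ∀ i x, col (σ i x) i = col x i)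
    (v : N) (i : Fin 3) (u : List Let) :
    nf col σ (σ i v) (lmul (i, col v i) u) = nf col σ v u := by
  unfold lmul
  split_ifs with h
  · cases u with
    | nil => simp at h
    | cons a u => simp at h; subst h; simp [nf]
  · simp [nf, hc, hσ]

lemma nf_rmul (hσ : ∀ i x, σ i (σ i x) = x) (hc : ∀ i x, col (σ i x) i = col x i)
    (v : N) (u : List Let) (b : Let) :
    nf col σ v (rmul u b) = act col σ b (nf col σ v u) := by
  induction u generalizing v with
  | nil => rfl
  | cons a u ih =>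
    by_cases h : col v a.1 = a.2
    · have e : nf col σ v (a :: u) = nf col σ (σ a.1 v) u := by simp [nf, h]
      rw [e, ← ih]
      cases u with
      | nil =>
        by_cases hab : a = b
        · subst hab
          simp [rmul, nf, hc, hσ, h]
        · simp [rmul, hab, nf, h]
      | cons a' u => simp [rmul, nf, h]
    · have e : nf col σ v (a :: u) = (v, a :: u) := by simp [nf, h]
      rw [e]; rfl

lemma nf_normal (v : N) (u : List Let) :
    ∀ a ∈ (nf col σ v u).2.head?, col (nf col σ v u).1 a.1 ≠ a.2 := by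
  induction u generalizing v with
  | nil => simp [nf]
  | cons a u ih =>
    by_cases h : col v a.1 = a.2
    · have e : nf col σ v (a :: u) = nf col σ (σ a.1 v) u := by simp [nf, h]
      rw [e]; exact ih _
    · have e : nf col σ v (a :: u) = (v, a :: u) := by simp [nf, h]
      rw [e]; simpa using h

variable (col σ)

open Classical in
/-- longest agreement -/
noncomputable def ecc (t : ℕ) (x w : N) : ℕ :=
  Nat.findGreatest (fun n => ∃ js : List (Fin 3), Red js ∧ js.length = n ∧
    cols col σ x js = cols col σ w js) t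

/-- potential -/
noncomputable def psi (t : ℕ) (x : N) (z : N × List Let) : ℕ :=
  if z.2 = [] then ecc col σ t x z.1 else t + z.2.length

variable {col σ}

lemma ecc_le (t : ℕ) (x w : N) : ecc col σ t x w ≤ t := by
  classical
  exact Nat.findGreatest_le _

lemma ecc_spec (t : ℕ) (x w : N) : ∃ js : List (Fin 3), Red js ∧ js.length = ecc col σ t x w ∧
    cols col σ x js = cols col σ w js := by
  classical
  exact Nat.findGreatest_spec (P := fun n => ∃ js : List (Fin 3), Red js ∧ js.length = n ∧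
    cols col σ x js = cols col σ w js) (Nat.zero_le t) ⟨[], by simp, rfl, rfl⟩

lemma le_ecc {t : ℕ} {x w : N} {js : List (Fin 3)} (h1 : Red js) (h2 : js.length ≤ t)
    (h3 : cols col σ x js = cols col σ w js) : js.length ≤ ecc col σ t x w := by
  classical
  exact Nat.le_findGreatest (P := fun n => ∃ js : List (Fin 3), Red js ∧ js.length = n ∧
    cols col σ x js = cols col σ w js) h2 ⟨js, h1, rfl, h3⟩

/-- at a good normal state the potential increases in all but one direction -/
lemma psi_incr (hσ : ∀ i x, σ i (σ i x) = x) (hc : ∀ i x, col (σ i x) i = col x i)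
    (t : ℕ) (x : N) (z : N × List Let) (hz : ∀ a ∈ z.2.head?, col z.1 a.1 ≠ a.2)
    (hgood : ecc col σ t x z.1 < t) :
    ∃ i0 : Fin 3, ∀ i, i ≠ i0 →
      psi col σ t x z < psi col σ t (σ i x) (act col σ (i, col x i) z) := by
  obtain ⟨w, u⟩ := z
  cases u with
  | nil =>
    obtain ⟨js, h1, h2, h3⟩ := ecc_spec (col := col) (σ := σ) t x w
    refine ⟨js.head?.getD 0, fun i hi => ?_⟩
    by_cases h : col w i = col x i
    · have e : act col σ (i, col x i) (w, []) = (σ i w, []) := by simp [act, rmul, nf, h]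
      rw [e]
      have hr : Red (i :: js) := by
        refine List.isChain_cons.2 ⟨fun y hy hiy => hi ?_, h1⟩
        rw [Option.mem_def.1 hy]; exact hiy
      have := le_ecc (col := col) (σ := σ) (t := t) (x := σ i x) (w := σ i w) hr
        (by simp at hgood ⊢; omega) (by simp [cols, hc, hσ, h, h3])
      simp [psi] at this ⊢
      omega
    · have e : act col σ (i, col x i) (w, []) = (w, [(i, col x i)]) := by simp [act, rmul, nf, h]
      rw [e]
      simp [psi] at hgood ⊢
      omega
  | cons a u =>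
    refine ⟨((a :: u).getLast (by simp)).1, fun i hi => ?_⟩
    have h1 : ¬ (a :: u).getLast? = some (i, col x i) := by
      intro h
      rw [List.getLast?_eq_some_getLast (by simp)] at h
      apply hi
      rw [Option.some.inj h]
    have h2 : col w a.1 ≠ a.2 := hz a (by simp)
    have e : act col σ (i, col x i) (w, a :: u) = (w, a :: u ++ [(i, col x i)]) := by
      simp only [act]
      rw [rmul_eq, if_neg h1]
      simp [nf, h2]
    rw [e]
    simp [psi]

end

/-- signed mass functional -/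
noncomputable def Q {N Z : Type} [DecidableEq Z] (G : Finset N) (e : N → Z) (p : N → ℝ)
    (h : Z → ℝ) : ℝ :=
  ∑ z ∈ G.image e, |∑ v ∈ G with e v = z, p v| * h z

section
variable {N Z : Type} [DecidableEq Z]

lemma sum_fiber (G : Finset N) (e : N → Z) (p : N → ℝ) (h : Z → ℝ) :
    ∑ z ∈ G.image e, (∑ v ∈ G with e v = z, p v) * h z = ∑ v ∈ G, p v * h (e v) := by
  rw [← Finset.sum_fiberwise_of_maps_to (s := G) (t := G.image e) (g := e)
    (fun v hv => Finset.mem_image_of_mem e hv)]
  refine Finset.sum_congr rfl fun z _ => ?_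
  rw [Finset.sum_mul]
  refine Finset.sum_congr rfl fun v hv => ?_
  rw [(Finset.mem_filter.1 hv).2]

lemma Q_restrict {G G' : Finset N} (hG : G' ⊆ G) (e : N → Z) (p : N → ℝ) (h : Z → ℝ)
    (hp : ∀ v ∈ G, v ∉ G' → p v = 0) : Q G e p h = Q G' e p h := by
  have h1 : ∀ z, ∑ v ∈ G with e v = z, p v = ∑ v ∈ G' with e v = z, p v := by
    intro z
    symm
    refine Finset.sum_subset (Finset.filter_subset_filter _ hG) fun v hv hv' => ?_
    obtain ⟨k1, k2⟩ := Finset.mem_filter.1 hv
    exact hp v k1 fun k3 => hv' (Finset.mem_filter.2 ⟨k3, k2⟩)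
  unfold Q
  simp only [h1]
  symm
  refine Finset.sum_subset (Finset.image_subset_image hG) fun z _ hz => ?_
  rw [Finset.filter_eq_empty_iff.2 fun v hv hvz => hz (Finset.mem_image.2 ⟨v, hv, hvz⟩)]
  simp

lemma Q_sign (G : Finset N) (e : N → Z) (p : N → ℝ) :
    ∃ s : Z → ℝ, (∀ z, |s z| ≤ 1) ∧ Q G e p (fun _ => 1) = ∑ v ∈ G, p v * s (e v) := by
  refine ⟨fun z => if 0 ≤ ∑ v ∈ G with e v = z, p v then 1 else -1, fun z => ?_, ?_⟩
  · dsimp only; split_ifs <;> simp
  · rw [← sum_fiber G e p (fun z => if 0 ≤ ∑ v ∈ G with e v = z, p v then 1 else -1)]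
    refine Finset.sum_congr rfl fun z _ => ?_
    split_ifs with h
    · rw [abs_of_nonneg h]
    · rw [abs_of_neg (not_le.1 h)]; ring

lemma Q_ge (G : Finset N) (e : N → Z) (p : N → ℝ) :
    ∑ v ∈ G, p v ≤ Q G e p (fun _ => 1) := by
  have := sum_fiber G e p (fun _ => 1)
  simp only [mul_one] at this
  rw [← this]
  exact Finset.sum_le_sum fun z _ => by simpa using le_abs_self _

lemma Q_sum_ge (G : Finset N) (e : N → Z) (p : N → ℝ) (h : Fin 3 → Z → ℝ) (c : ℝ)
    (hc : ∀ v ∈ G, c ≤ ∑ i, h i (e v)) : c * Q G e p (fun _ => 1) ≤ ∑ i, Q G e p (h i) := by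
  unfold Q
  rw [Finset.sum_comm, Finset.mul_sum]
  refine Finset.sum_le_sum fun z hz => ?_
  obtain ⟨v, hv, rfl⟩ := Finset.mem_image.1 hz
  rw [← Finset.mul_sum, mul_one, mul_comm]
  exact mul_le_mul_of_nonneg_left (hc v hv) (abs_nonneg _)

lemma Q_pair (G : Finset N) (e e' : N → Z) (I : Z → Z) (p p' : N → ℝ) (h h' : Z → ℝ) (ε : ℝ)
    (h1 : ∀ v ∈ G, e' v = I (e v)) (h2 : ∀ v ∈ G, e v = I (e' v))
    (h3 : ∀ v ∈ G, h' (e' v) = - h (e v)) (h4 : ∀ z, |h z| ≤ 1)
    (h5 : ∀ s : Z → ℝ, (∀ z, |s z| ≤ 1) → ∑ v ∈ G, (p v - p' v) * s (e v) ≤ ε) :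
    Q G e p h + Q G e' p' h' ≤ ε := by
  have key : Q G e' p' h' = ∑ z ∈ G.image e, |∑ v ∈ G with e v = z, p' v| * (- h z) := by
    unfold Q
    symm
    refine Finset.sum_nbij' I I ?_ ?_ ?_ ?_ ?_
    · intro z hz
      obtain ⟨v, hv, rfl⟩ := Finset.mem_image.1 hz
      rw [← h1 v hv]; exact Finset.mem_image_of_mem _ hv
    · intro z hz
      obtain ⟨v, hv, rfl⟩ := Finset.mem_image.1 hz
      rw [← h2 v hv]; exact Finset.mem_image_of_mem _ hv
    · intro z hz
      obtain ⟨v, hv, rfl⟩ := Finset.mem_image.1 hz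
      rw [← h1 v hv, ← h2 v hv]
    · intro z hz
      obtain ⟨v, hv, rfl⟩ := Finset.mem_image.1 hz
      rw [← h2 v hv, ← h1 v hv]
    · intro z hz
      obtain ⟨v, hv, rfl⟩ := Finset.mem_image.1 hz
      rw [← h1 v hv, h3 v hv]
      congr 3
      refine Finset.filter_congr fun w hw => ⟨fun k => ?_, fun k => ?_⟩
      · rw [h1 w hw, h1 v hv, k]
      · rw [h2 w hw, h2 v hv, k]
  obtain ⟨s, hs, hs'⟩ := Q_sign G e (fun v => p v - p' v)
  refine le_trans ?_ (hs' ▸ h5 s hs)
  rw [key]
  unfold Q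
  rw [← Finset.sum_add_distrib]
  refine Finset.sum_le_sum fun z _ => ?_
  rw [Finset.sum_sub_distrib, mul_one]
  set a := ∑ v ∈ G with e v = z, p v
  set b := ∑ v ∈ G with e v = z, p' v
  calc |a| * h z + |b| * -h z = (|a| - |b|) * h z := by ring
    _ ≤ |(|a| - |b|) * h z| := le_abs_self _
    _ = |(|a| - |b|)| * |h z| := abs_mul _ _
    _ ≤ |a - b| * 1 := mul_le_mul (abs_abs_sub_abs_le_abs_sub _ _) (h4 z) (abs_nonneg _)
        (abs_nonneg _)
    _ = _ := mul_one _

end

end Crest.Agent.R115
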